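import Vale.Agent.P085.Defs

/-!
P085 step: a finite random family as one element of the product algebra with the averaged
trace, and the input of the step as one structure.
-/

open scoped InnerProductSpace ComplexConjugate
open Filter Topology

namespace VP085.Step

open VP086

section Product

variable {κ A : Type} [Fintype κ] [Nonempty κ] [CStarAlgebra A] {H : Type} [NormedAddCommGroup H]
  [InnerProductSpace ℂ H]

/-- The trace vectors of all components, scaled to norm one. -/
noncomputable def piι (κ : Type) [Fintype κ] (S : Std A H) :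
    (κ → A) →ₗ[ℂ] PiLp 2 (fun _ : κ => H) where
  toFun x := ((Real.sqrt (Fintype.card κ))⁻¹ : ℂ) • WithLp.toLp 2 fun w => S.ι (x w)
  map_add' x y := by
    rw [← smul_add, ← WithLp.toLp_add]
    congr 2
    funext w
    exact map_add S.ι _ _
  map_smul' c x := by
    rw [RingHom.id_apply, smul_comm c]
    congr 1
    rw [← WithLp.toLp_smul]
    congr 1
    funext w
    exact map_smul S.ι c _

omit [Nonempty κ] in
lemma inner_piι (S : Std A H) (x y : κ → A) :
    ⟪piι κ S x, piι κ S y⟫_ℂ = (Fintype.card κ : ℂ)⁻¹ * ∑ w, ⟪S.ι (x w), S.ι (y w)⟫_ℂ := by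
  simp only [piι, LinearMap.coe_mk, AddHom.coe_mk, inner_smul_left, inner_smul_right,
    PiLp.inner_apply, map_inv₀, Complex.conj_ofReal, ← mul_assoc]
  congr 1
  rw [← mul_inv, ← Complex.ofReal_mul, Real.mul_self_sqrt (Nat.cast_nonneg _), Complex.ofReal_natCast]

omit [Nonempty κ] in
lemma norm_piι_sq (S : Std A H) (x : κ → A) :
    ‖piι κ S x‖ ^ 2 = (Fintype.card κ : ℝ)⁻¹ * ∑ w, ‖S.ι (x w)‖ ^ 2 := by
  have h := inner_piι S x x
  simp only [inner_self_eq_norm_sq_to_K] at h
  rw [← Complex.ofReal_inj]
  push_cast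
  exact h

/-- The product algebra with the averaged trace. -/
noncomputable def piStd (κ : Type) [Fintype κ] [Nonempty κ] (S : Std A H) :
    Std (κ → A) (PiLp 2 (fun _ : κ => H)) where
  ι := piι κ S
  norm_one := by
    have h := norm_piι_sq S (1 : κ → A)
    simp only [Pi.one_apply, S.norm_one, one_pow, Finset.sum_const, Finset.card_univ, nsmul_eq_mul,
      mul_one] at h
    rw [inv_mul_cancel₀ (Nat.cast_ne_zero.2 Fintype.card_ne_zero)] at h
    exact (pow_eq_one_iff_of_nonneg (norm_nonneg _) two_ne_zero).1 h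
  inner_ι x y := by
    rw [inner_piι, inner_piι]
    congr 1
    exact Finset.sum_congr rfl fun w _ => S.inner_ι _ _
  left_le a x := by
    refine (pow_le_pow_iff_left₀ (norm_nonneg _) (by positivity) two_ne_zero).1 ?_
    rw [mul_pow, norm_piι_sq, norm_piι_sq, ← mul_assoc, mul_comm (‖a‖ ^ 2), mul_assoc,
      Finset.mul_sum (s := Finset.univ) (a := ‖a‖ ^ 2)]
    gcongr with w
    rw [← mul_pow]
    refine pow_le_pow_left₀ (norm_nonneg _) ((S.left_le _ _).trans ?_) 2
    gcongr
    exact norm_le_pi_norm a w
  right_le a x := by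
    refine (pow_le_pow_iff_left₀ (norm_nonneg _) (by positivity) two_ne_zero).1 ?_
    rw [mul_pow, norm_piι_sq, norm_piι_sq, ← mul_assoc, mul_comm (‖a‖ ^ 2), mul_assoc,
      Finset.mul_sum (s := Finset.univ) (a := ‖a‖ ^ 2)]
    gcongr with w
    rw [← mul_pow]
    refine pow_le_pow_left₀ (norm_nonneg _) ((S.right_le _ _).trans ?_) 2
    gcongr
    exact norm_le_pi_norm a w
  tau_comm x y := by
    rw [inner_piι, inner_piι]
    congr 1
    exact Finset.sum_congr rfl fun w _ => S.tau_comm _ _

lemma piStd_τ (S : Std A H) (x : κ → A) :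
    (piStd κ S).τ x = (Fintype.card κ : ℂ)⁻¹ * ∑ w, S.τ (x w) :=
  inner_piι S 1 x

end Product

/-- The input of the step, without the approximation hypothesis. -/
structure Datum : Type 1 where
  A : Type
  [instA : CStarAlgebra A]
  H : Type
  [instH : NormedAddCommGroup H]
  [instI : InnerProductSpace ℂ H]
  S : Std A H
  κ : Type
  [instF : Fintype κ]
  [instN : Nonempty κ]
  g : κ → Fin 3 → A
  g_sa : ∀ w i, IsSelfAdjoint (g w i)
  v : unitary A
  q : A
  semi : Semicircular S q

attribute [instance] Datum.instA Datum.instH Datum.instI Datum.instF Datum.instN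

namespace Datum

variable (X : Datum)

/-- The product algebra. -/
abbrev Alg : Type := X.κ → X.A

/-- The averaged trace. -/
noncomputable def std : Std X.Alg (PiLp 2 (fun _ : X.κ => X.H)) := piStd X.κ X.S

/-- The constant unitary `v`. -/
noncomputable def cv : unitary X.Alg :=
  ⟨fun _ => (X.v : X.A), by
    rw [Unitary.mem_iff]
    constructor <;> funext w <;> simp⟩

/-- The constant element `q`. -/
def cq : X.Alg := fun _ => X.q

/-- The carriers. -/
def carg (i : Fin 3) : X.Alg := fun w => X.g w i

/-- The hypothesis of the step. -/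
def Near (d : ℕ) (η : ℝ) : Prop :=
  WickNear X.S ({(X.v : X.A), star (X.v : X.A), X.q} : Set X.A) X.g d η

end Datum

end VP085.Step
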