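import Vale.Agent.P085.Step.Moments
import Vale.Agent.P086.Invariance
import Vale.Agent.P086.Statics
import Vale.Agent.P086.Flow

/-!
P085 step: a semicircular element is absorbed by a small move of any unitary.
-/

open scoped InnerProductSpace
open Filter Topology

namespace VP085.Step

open VP086

/-- The letters are finitely many. -/
instance : Finite Gen :=
  Finite.of_surjective (α := Fin 3 ⊕ Fin 3 ⊕ Unit)
    (Sum.elim Gen.p (Sum.elim Gen.m fun _ => Gen.q)) fun g => by
      cases g with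
      | p i => exact ⟨.inl i, rfl⟩
      | m i => exact ⟨.inr (.inl i), rfl⟩
      | q => exact ⟨.inr (.inr ()), rfl⟩

/-- The moments of every step tuple are near those of the model. -/
lemma exists_near (N : ℕ) {δ : ℝ} (hδ : 0 < δ) :
    ∃ n : ℕ, ∀ X : Datum, X.Near n (1 / (n + 1)) → ∀ W : List Gen, W.length ≤ N →
      ‖X.std.τ (ev (val (mvd X.car X.cv) X.cq) W) - modelMoment W‖ ≤ δ := by
  by_contra hcon
  simp only [not_exists, not_forall, exists_prop] at hcon
  choose X hX W hW hbad using hcon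
  have hev : ∀ᶠ n in atTop, ∀ V ∈ {V : List Gen | V.length ≤ N},
      ‖(X n).std.τ (ev (val (mvd (X n).car (X n).cv) (X n).cq) V) - modelMoment V‖ ≤ δ :=
    (Filter.eventually_all_finite (List.finite_length_le Gen N)).2 fun V _ =>
      (tendsto_iff_norm_sub_tendsto_zero.1 (tendsto_tup hX V)).eventually (eventually_le_nhds hδ)
  obtain ⟨n, hn⟩ := hev.exists
  exact hbad n (hn _ (hW n))

end VP085.Step

namespace VP085

open VP086 Step

theorem stepSpec : StepSpec := by
  intro ε hε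
  obtain ⟨δ, hδ, N, hstep⟩ := step_transfer invariance statics flow (ε / 2) (half_pos hε)
  obtain ⟨n, hn⟩ := exists_near N hδ
  refine ⟨n, 1 / (n + 1), by positivity, ?_⟩
  intro A _ H _ _ S v q hq κ _ _ g hg hw
  let X : Datum := ⟨A, H, S, κ, g, hg, v, q, hq⟩
  obtain ⟨w, hmove, y, hy, hyq⟩ := hstep X.Alg _ X.std (mvd X.car X.cv) X.cq
    (funext fun _ => hq.1.star_eq) ((pi_norm_le_iff_of_nonneg zero_le_two).2 fun _ => hq.2.1)
    (hn X hw)
  let s : unitary X.Alg := X.car 1
  let vp : unitary X.Alg := star s * w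
  have hu1 : mvd X.car X.cv 1 = s * X.cv := rfl
  have hvp : ‖X.std.ι ((vp : X.Alg) - (X.cv : X.Alg))‖ ≤ ε / 2 := by
    refine le_trans ?_ hmove
    rw [hu1, show (vp : X.Alg) - (X.cv : X.Alg) =
      star (s : X.Alg) * ((w : X.Alg) - (s : X.Alg) * (X.cv : X.Alg)) by
        rw [mul_sub, ← mul_assoc, Unitary.coe_star_mul_self, one_mul]; rfl]
    refine (X.std.left_le _ _).trans ?_
    rw [norm_star]
    exact mul_le_of_le_one_left (norm_nonneg _) (Lim.norm_unit_le X.std s.2)
  have hsum : ∑ ω, (‖S.ι ((vp : X.Alg) ω - (v : A))‖ ^ 2 + ‖S.ι (y ω - q)‖ ^ 2) ≤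
      Fintype.card κ * ε ^ 2 := by
    have e1 := norm_piι_sq S ((vp : X.Alg) - (X.cv : X.Alg))
    have e2 := norm_piι_sq S (y - X.cq)
    have k1 := pow_le_pow_left₀ (norm_nonneg _) hvp 2
    have k2 := pow_le_pow_left₀ (norm_nonneg _) hyq 2
    change ‖piι κ S _‖ ^ 2 ≤ _ at k1 k2
    rw [e1, inv_mul_le_iff₀ (Nat.cast_pos.2 Fintype.card_pos)] at k1
    rw [e2, inv_mul_le_iff₀ (Nat.cast_pos.2 Fintype.card_pos)] at k2
    rw [Finset.sum_add_distrib]
    refine (add_le_add k1 k2).trans ?_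
    nlinarith [sq_nonneg ε, Nat.cast_nonneg (α := ℝ) (Fintype.card κ)]
  obtain ⟨ω, -, hω⟩ := Finset.exists_le_of_sum_le Finset.univ_nonempty
    (hsum.trans_eq (show (Fintype.card κ : ℝ) * ε ^ 2 = ∑ _ω : κ, ε ^ 2 by simp))
  let ev₀ : X.Alg →⋆ₐ[ℂ] A := Pi.evalStarAlgHom ℂ (fun _ => A) ω
  let v' : unitary A := ⟨(vp : X.Alg) ω, by
    rw [Unitary.mem_iff]
    exact ⟨congrFun (Unitary.coe_star_mul_self vp) ω, congrFun (Unitary.coe_mul_star_self vp) ω⟩⟩
  refine ⟨ω, v', ?_, y ω, ?_, ?_⟩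
  · exact (pow_le_pow_iff_left₀ (norm_nonneg _) hε.le two_ne_zero).1
      ((le_add_of_nonneg_right (sq_nonneg _)).trans hω)
  · set B := l2Closure S (Set.range (g ω) ∪ {(v' : A)})
    have hsub : ∀ x ∈ Set.range (g ω) ∪ {(v' : A)}, x ∈ B := fun x hx =>
      adjoin_le_l2Closure S _ (StarAlgebra.subset_adjoin ℂ _ hx)
    have hph : ∀ i, (X.car i : X.Alg) ω ∈ B := fun i => by
      have e : (phase (g ω i) : A) = (X.car i : X.Alg) ω := phase_map ev₀ (X.isSelfAdjoint_carg i)
      rw [← e]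
      refine StarSubalgebra.topologicalClosure_minimal ?_ (isClosed_l2Closure S _) (phase_mem (hg ω i))
      refine StarAlgebra.adjoin_le ?_
      rintro x rfl
      exact hsub _ (Or.inl ⟨i, rfl⟩)
    have hwB : (w : X.Alg) ω ∈ B := by
      have e : (w : X.Alg) = (s : X.Alg) * (vp : X.Alg) := by
        show _ = (s : X.Alg) * (star (s : X.Alg) * (w : X.Alg))
        rw [← mul_assoc, Unitary.mul_star_self_of_mem s.2, one_mul]
      rw [e]
      exact mul_mem (hph 1) (hsub _ (Or.inr rfl))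
    have hle : StarAlgebra.adjoin ℂ
        {(mvd X.car X.cv 0 : X.Alg), (mvd X.car X.cv 2 : X.Alg), (w : X.Alg)} ≤ B.comap ev₀ := by
      refine StarAlgebra.adjoin_le ?_
      rintro x (rfl | rfl | rfl)
      · exact hph 0
      · exact hph 2
      · exact hwB
    exact hle hy
  · exact (pow_le_pow_iff_left₀ (norm_nonneg _) hε.le two_ne_zero).1
      ((le_add_of_nonneg_left (sq_nonneg _)).trans hω)

end VP085
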