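import Vale.Agent.P085.Defs

/-!
P085 step: if the carriers `e` are asymptotically free from a unitary `v` and a centred sequence
`q`, then so is `q` from the unitaries `e 0, e 1 * v, e 2`, which are asymptotically free Haar.
-/

open Filter Topology
open scoped InnerProductSpace

namespace VP085.Step

open VP086

/-- A letter of the free group. -/
abbrev Z : Type := Fin 3 × Bool

/-- The inverse letter. -/
def inv (z : Z) : Z := (z.1, !z.2)

/-- The word in `v, star v` before a letter. -/
def pre (z : Z) : List (Fin 3) := if z = (1, false) then [1] else []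

/-- The word in `v, star v` after a letter. -/
def post (z : Z) : List (Fin 3) := if z = (1, true) then [0] else []

lemma no_cancel {a b : Z} : (a.1 = b.1 → a.2 = b.2) ↔ b ≠ inv a := by
  revert a b; decide

/-- A combination of words in `v, star v, q`. -/
abbrev Gap : Type := List (ℂ × List (Fin 3))

/-- The gap of an optional centred power of `q` between two words. -/
def gapOf (c : ℕ → ℂ) (P : List (Fin 3)) : Option ℕ → List (Fin 3) → Gap
  | none, R => [(1, P ++ R)]
  | some m, R => [(1, P ++ List.replicate m 2 ++ R), (-c m, P ++ R)]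

section

variable {A : Type} [CStarAlgebra A] {H : Type} [NormedAddCommGroup H] [InnerProductSpace ℂ H]

/-- The three letters. -/
def xv (v : unitary A) (q : A) : Fin 3 → A := ![(v : A), star (v : A), q]

/-- The value of a word. -/
def mon (v : unitary A) (q : A) (m : List (Fin 3)) : A := (m.map (xv v q)).prod

/-- The value of a combination. -/
def gv (v : unitary A) (q : A) (g : Gap) : A := (g.map fun p => p.1 • mon v q p.2).sum

/-- The value of a letter. -/
def zv (u : Fin 3 → unitary A) (z : Z) : A := if z.2 then (u z.1 : A) else star (u z.1 : A)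

/-- The moved tuple. -/
def mvd (e : Fin 3 → unitary A) (v : unitary A) : Fin 3 → unitary A := ![e 0, e 1 * v, e 2]

lemma mon_append (v : unitary A) (q : A) (a b : List (Fin 3)) :
    mon v q (a ++ b) = mon v q a * mon v q b := by simp [mon]

lemma mon_replicate (v : unitary A) (q : A) (m : ℕ) : mon v q (List.replicate m 2) = q ^ m := by
  simp [mon, xv]

lemma zv_mvd (e : Fin 3 → unitary A) (v : unitary A) (q : A) (z : Z) :
    zv (mvd e v) z = mon v q (pre z) * zv e z * mon v q (post z) := by
  obtain ⟨i, b⟩ := z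
  fin_cases i <;> cases b <;> simp [zv, mvd, pre, post, mon, xv]

lemma mon_post_pre (v : unitary A) (q : A) (z : Z) :
    mon v q (post z) * mon v q (pre (inv z)) = 1 ∧ mon v q (pre (inv z)) * mon v q (post z) = 1 := by
  obtain ⟨i, b⟩ := z
  fin_cases i <;> cases b <;> simp [pre, post, mon, xv, inv]

lemma coe_wordHom_mk (u : Fin 3 → unitary A) (w : List Z) :
    (wordHom u (FreeGroup.mk w) : A) = (w.map (zv u)).prod := by
  rw [wordHom, FreeGroup.lift_mk]
  induction w with
  | nil => simp
  | cons z w ih =>
    simp only [List.map_cons, List.prod_cons, Submonoid.coe_mul, ih]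
    congr 1
    obtain ⟨i, b⟩ := z
    cases b <;> simp [zv, ← Unitary.star_eq_inv]

lemma gv_gapOf (v : unitary A) (q : A) (c : ℕ → ℂ) (P R : List (Fin 3)) (o : Option ℕ) :
    gv v q (gapOf c P o R) =
      mon v q P * (o.elim 1 fun m => q ^ m - c m • 1) * mon v q R := by
  cases o with
  | none => simp [gv, gapOf, mon_append]
  | some m =>
    simp [gv, gapOf, mon_append, mon_replicate, mul_sub, sub_mul, ← sub_eq_add_neg, mul_assoc]

lemma norm_mon_le (S : Std A H) {v : unitary A} {q : A} (hq : ‖q‖ ≤ 2) (m : List (Fin 3)) :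
    ‖mon v q m‖ ≤ 2 ^ m.length := by
  have hne : Nontrivial A := ⟨1, 0, fun h => by
    have := S.norm_one
    rw [h, map_zero, norm_zero] at this
    exact zero_ne_one this⟩
  have hv : ∀ i, ‖xv v q i‖ ≤ 2 := fun i => by
    fin_cases i
    · simp [xv, CStarRing.norm_coe_unitary v]
    · simp [xv, norm_star, CStarRing.norm_coe_unitary v]
    · simpa [xv] using hq
  induction m with
  | nil => simp [mon]
  | cons i m ih =>
    simp only [mon, List.map_cons, List.prod_cons, List.length_cons, pow_succ']
    exact (norm_mul_le _ _).trans (mul_le_mul (hv i) ih (norm_nonneg _) zero_le_two)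

lemma norm_τ_le (S : Std A H) (x : A) : ‖S.τ x‖ ≤ ‖x‖ := by
  refine (norm_inner_le_norm _ _).trans ?_
  rw [S.norm_one, one_mul]
  simpa [S.norm_one] using S.left_le x 1

lemma norm_τ_gv_le (S : Std A H) {v : unitary A} {q : A} (hq : ‖q‖ ≤ 2) (g : Gap) :
    ‖S.τ (gv v q g)‖ ≤ (g.map fun p => ‖p.1‖ * 2 ^ p.2.length).sum := by
  refine (norm_τ_le S _).trans ?_
  induction g with
  | nil => simp [gv]
  | cons p g ih =>
    simp only [gv, List.map_cons, List.sum_cons]
    refine (norm_add_le _ _).trans (add_le_add ?_ ih)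
    rw [norm_smul]
    exact mul_le_mul_of_nonneg_left (norm_mon_le S hq _) (norm_nonneg _)

end

variable {A H : ℕ → Type} [∀ n, CStarAlgebra (A n)] [∀ n, NormedAddCommGroup (H n)]
  [∀ n, InnerProductSpace ℂ (H n)] (S : ∀ n, Std (A n) (H n)) (e : ∀ n, Fin 3 → unitary (A n))
  (v : ∀ n, unitary (A n)) (q : ∀ n, A n) (c : ℕ → ℂ)

/-- The centred blocks. -/
noncomputable def blk (n : ℕ) : FreeGroup (Fin 3) ⊕ List (Fin 3) → A n :=
  Sum.elim (fun h => (wordHom (e n) h : A n))
    fun m => mon (v n) (q n) m - (S n).τ (mon (v n) (q n) m) • 1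

/-- Asymptotic freeness of the carriers from `v, q`. -/
def CarFree : Prop :=
  ∀ l : List (FreeGroup (Fin 3) ⊕ List (Fin 3)), l ≠ [] → (∀ h, Sum.inl h ∈ l → h ≠ 1) →
    l.IsChain (fun a b => Sum.isLeft a ≠ Sum.isLeft b) →
    Tendsto (fun n => (S n).τ (l.map (blk S e v q n)).prod) atTop (𝓝 0)

/-- The product of a list of gaps and letters. -/
def rest (n : ℕ) : List (Gap × Z) → Gap → A n
  | [], g => gv (v n) (q n) g
  | (g, z) :: R, gend => gv (v n) (q n) g * zv (e n) z * rest n R gend

/-- A gap between inverse letters is centred. -/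
def Ok : Z → List (Gap × Z) → Prop
  | _, [] => True
  | z, (g, z') :: R => (z' = inv z → ∀ n, (S n).τ (gv (v n) (q n) g) = 0) ∧ Ok z' R

variable {S e v q c}

lemma sum_split (n : ℕ) (X Y : A n) (g : Gap) :
    (S n).τ (X * gv (v n) (q n) g * Y) = (S n).τ (gv (v n) (q n) g) * (S n).τ (X * Y) +
      (g.map fun p => p.1 * (S n).τ (X * blk S e v q n (Sum.inr p.2) * Y)).sum := by
  induction g with
  | nil => simp [gv, Std.τ]
  | cons p g ih =>
    have e1 : gv (v n) (q n) (p :: g) = p.1 • mon (v n) (q n) p.2 + gv (v n) (q n) g := by simp [gv]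
    have e2 : blk S e v q n (Sum.inr p.2) = mon (v n) (q n) p.2 - (S n).τ (mon (v n) (q n) p.2) • 1 :=
      rfl
    rw [List.map_cons, List.sum_cons, e1, mul_add, add_mul]
    simp only [Std.τ, map_add, inner_add_right] at ih ⊢
    rw [ih]
    simp only [e2, Std.τ, mul_smul_comm, smul_mul_assoc, mul_sub, sub_mul, mul_one, map_smul,
      map_sub, inner_smul_right, inner_sub_right]
    ring

lemma tendsto_sum_list {ι : Type} (g : List ι) (f : ι → ℕ → ℂ)
    (h : ∀ i ∈ g, Tendsto (f i) atTop (𝓝 0)) :
    Tendsto (fun n => (g.map fun i => f i n).sum) atTop (𝓝 0) := by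
  induction g with
  | nil => simp
  | cons i g ih =>
    simpa using (h i (List.mem_cons_self ..)).add (ih fun j hj => h j (List.mem_cons_of_mem _ hj))

lemma tendsto_add0 {a b : ℕ → ℂ} (ha : Tendsto a atTop (𝓝 0)) (hb : Tendsto b atTop (𝓝 0)) :
    Tendsto (fun n => a n + b n) atTop (𝓝 0) := by simpa using ha.add hb

lemma tendsto_const0 {a : ℕ → ℂ} (c : ℂ) (ha : Tendsto a atTop (𝓝 0)) :
    Tendsto (fun n => c * a n) atTop (𝓝 0) := by simpa using ha.const_mul c

lemma tendsto_bdd_mul {a b : ℕ → ℂ} {C : ℝ} (ha : ∀ n, ‖a n‖ ≤ C) (hb : Tendsto b atTop (𝓝 0)) :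
    Tendsto (fun n => a n * b n) atTop (𝓝 0) := by
  refine squeeze_zero_norm (fun n => ?_) (by simpa using hb.norm.const_mul C)
  rw [norm_mul]
  exact mul_le_mul_of_nonneg_right (ha n) (norm_nonneg _)

/-- The recursion on gaps. -/
lemma tendsto_rest (hS : CarFree S e v q) (hq : ∀ n, ‖q n‖ ≤ 2) :
    ∀ (R : List (Gap × Z)) (gend : Gap) (l₀ : List (FreeGroup (Fin 3) ⊕ List (Fin 3))) (w : List Z)
      (z₀ : Z), FreeGroup.IsReduced w → w.getLast? = some z₀ → Ok S v q z₀ R →
      (∀ h, Sum.inl h ∈ l₀ → h ≠ 1) →
      (l₀ ++ [Sum.inl (FreeGroup.mk w)]).IsChain (fun a b => Sum.isLeft a ≠ Sum.isLeft b) →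
      Tendsto (fun n => (S n).τ ((l₀.map (blk S e v q n)).prod * (w.map (zv (e n))).prod *
        rest e v q n R gend)) atTop (𝓝 0) := by
  intro R
  have hne : ∀ {w : List Z} {z₀ : Z}, FreeGroup.IsReduced w → w.getLast? = some z₀ →
      FreeGroup.mk w ≠ 1 := by
    intro w z₀ hw hz h
    rw [← FreeGroup.toWord_eq_nil_iff, FreeGroup.toWord_mk, hw.reduce_eq] at h
    simp [h] at hz
  induction R with
  | nil =>
    intro gend l₀ w z₀ hw hz _ hl hch
    have hmem : ∀ h, Sum.inl h ∈ l₀ ++ [Sum.inl (FreeGroup.mk w)] → h ≠ 1 := fun h hh => by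
      rcases List.mem_append.1 hh with hh | hh
      · exact hl h hh
      · rw [List.mem_singleton, Sum.inl.injEq] at hh; exact hh ▸ hne hw hz
    have h1 := hS _ (by simp) hmem hch
    have h2 : ∀ m, Tendsto (fun n => (S n).τ
        ((l₀ ++ [Sum.inl (FreeGroup.mk w)] ++ [Sum.inr m]).map (blk S e v q n)).prod) atTop (𝓝 0) :=
      fun m => hS _ (by simp) (fun h hh => hmem h (by simpa using hh))
        (List.isChain_append.2 ⟨hch, List.isChain_singleton _, fun a ha b hb => by
          simp only [List.getLast?_append, List.getLast?_singleton, Option.some_or, Option.mem_def,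
            Option.some.injEq, List.head?_cons] at ha hb
          subst ha; subst hb; simp⟩)
    have ew : ∀ n, blk S e v q n (Sum.inl (FreeGroup.mk w)) = (w.map (zv (e n))).prod :=
      fun n => coe_wordHom_mk (e n) w
    refine Tendsto.congr (fun n => ?_) (tendsto_add0 (tendsto_bdd_mul
      (fun n => norm_τ_gv_le (S n) (v := v n) (hq n) gend) h1)
      (tendsto_sum_list gend _ fun p _ => tendsto_const0 p.1 (h2 p.2)))
    · simp only [rest]
      have := sum_split (e := e) (S := S) (v := v) (q := q) n
        ((l₀.map (blk S e v q n)).prod * (w.map (zv (e n))).prod) 1 gend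
      simp only [mul_one] at this
      rw [this]
      simp [ew, mul_assoc]
  | cons gz R ih =>
    obtain ⟨g, z⟩ := gz
    intro gend l₀ w z₀ hw hz hok hl hch
    obtain ⟨hg, hok⟩ := hok
    have ew : ∀ n, blk S e v q n (Sum.inl (FreeGroup.mk w)) = (w.map (zv (e n))).prod :=
      fun n => coe_wordHom_mk (e n) w
    have h2 : ∀ m, Tendsto (fun n => (S n).τ
        (((l₀ ++ [Sum.inl (FreeGroup.mk w), Sum.inr m]).map (blk S e v q n)).prod *
          ([z].map (zv (e n))).prod * rest e v q n R gend)) atTop (𝓝 0) := fun m => by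
      refine ih gend _ [z] z FreeGroup.IsReduced.singleton rfl hok ?_ ?_
      · intro h hh
        simp only [List.mem_append, List.mem_cons, List.not_mem_nil, or_false, Sum.inl.injEq,
          reduceCtorEq] at hh
        rcases hh with hh | hh
        · exact hl h hh
        · exact hh ▸ hne hw hz
      · rw [List.append_assoc]
        refine List.isChain_append.2 ⟨(List.isChain_append.1 hch).1, by simp, fun a ha b hb => ?_⟩
        exact (List.isChain_append.1 hch).2.2 a ha b (by simpa using hb)
    have key : Tendsto (fun n => (S n).τ (gv (v n) (q n) g) * (S n).τ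
        ((l₀.map (blk S e v q n)).prod * ((w ++ [z]).map (zv (e n))).prod * rest e v q n R gend))
        atTop (𝓝 0) := by
      by_cases hzz : z = inv z₀
      · simp only [hg hzz, zero_mul]; exact tendsto_const_nhds
      · refine tendsto_bdd_mul (fun n => norm_τ_gv_le (S n) (hq n) g) (ih gend l₀ (w ++ [z]) z ?_
          (by simp) hok hl (List.isChain_append.2 ⟨(List.isChain_append.1 hch).1,
            List.isChain_singleton _, fun a ha b hb => ?_⟩))
        · refine List.isChain_append.2 ⟨hw, List.isChain_singleton _, fun a ha b hb => ?_⟩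
          rw [hz, Option.mem_def, Option.some.injEq] at ha
          simp only [List.head?_cons, Option.mem_def, Option.some.injEq] at hb
          subst ha; subst hb
          exact no_cancel.2 hzz
        · have := (List.isChain_append.1 hch).2.2 a ha (Sum.inl (FreeGroup.mk w)) (by simp)
          simp only [List.head?_cons, Option.mem_def, Option.some.injEq] at hb
          subst hb; simpa using this
    refine Tendsto.congr (fun n => ?_) (tendsto_add0 key (tendsto_sum_list g _ fun p _ =>
      tendsto_const0 p.1 (h2 p.2)))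
    have := sum_split (e := e) (S := S) (v := v) (q := q) n
      ((l₀.map (blk S e v q n)).prod * (w.map (zv (e n))).prod) (zv (e n) z * rest e v q n R gend) g
    simp only [rest, mul_assoc, List.map_append, List.prod_append, List.map_cons, List.map_nil,
      List.prod_cons, List.prod_nil, mul_one, ew] at this ⊢
    exact this.symm

/-- A word starting with a gap. -/
lemma tendsto_start (hS : CarFree S e v q) (hq : ∀ n, ‖q n‖ ≤ 2) (g : Gap) (z : Z)
    (R : List (Gap × Z)) (gend : Gap) (hok : Ok S v q z R) :
    Tendsto (fun n => (S n).τ (rest e v q n ((g, z) :: R) gend)) atTop (𝓝 0) := by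
  have h1 := tendsto_rest hS hq R gend [] [z] z FreeGroup.IsReduced.singleton rfl hok (by simp)
    (by simp)
  have h2 : ∀ m, Tendsto (fun n => (S n).τ
      (([Sum.inr m].map (blk S e v q n)).prod * ([z].map (zv (e n))).prod *
        rest e v q n R gend)) atTop (𝓝 0) := fun m =>
    tendsto_rest hS hq R gend [Sum.inr m] [z] z FreeGroup.IsReduced.singleton rfl hok (by simp)
      (by simp)
  refine Tendsto.congr (fun n => ?_) (tendsto_add0 (tendsto_bdd_mul
    (fun n => norm_τ_gv_le (S n) (v := v n) (hq n) g) h1)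
    (tendsto_sum_list g _ fun p _ => tendsto_const0 p.1 (h2 p.2)))
  have := sum_split (e := e) (S := S) (v := v) (q := q) n 1 (zv (e n) z * rest e v q n R gend) g
  simp only [rest, one_mul, mul_assoc, List.map_cons, List.map_nil, List.prod_cons, List.prod_nil,
    mul_one] at this ⊢
  exact this.symm

/-- The letters of a list of blocks, each with an optional centred power before it. -/
def toks : List (ℕ ⊕ FreeGroup (Fin 3)) → List (Option ℕ × Z) × Option ℕ
  | [] => ([], none)
  | Sum.inr h :: L => (h.toWord.map (fun z => (none, z)) ++ (toks L).1, (toks L).2)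
  | Sum.inl m :: L =>
    match (toks L).1 with
    | [] => ([], some m)
    | p :: T => ((some m, p.2) :: T, (toks L).2)

/-- The gaps of a list of letters, after a given word. -/
def gaps (c : ℕ → ℂ) : List (Fin 3) → List (Option ℕ × Z) → List (Gap × Z)
  | _, [] => []
  | P, p :: T => (gapOf c P p.1 (pre p.2), p.2) :: gaps c (post p.2) T

/-- The last word. -/
def lastPost : List (Fin 3) → List (Option ℕ × Z) → List (Fin 3)
  | P, [] => P
  | _, p :: T => lastPost (post p.2) T

lemma rest_gaps (n : ℕ) : ∀ (T : List (Option ℕ × Z)) (P : List (Fin 3)) (o : Option ℕ),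
    rest e v q n (gaps c P T) (gapOf c (lastPost P T) o []) = mon (v n) (q n) P *
      ((T.map fun p => (p.1.elim 1 fun m => q n ^ m - c m • 1) * zv (mvd (e n) (v n)) p.2).prod *
        o.elim 1 fun m => q n ^ m - c m • 1)
  | [], P, o => by simp [gaps, rest, lastPost, gv_gapOf, show mon (v n) (q n) [] = 1 by rfl]
  | p :: T, P, o => by
    simp only [gaps, rest, lastPost, gv_gapOf, rest_gaps n T, List.map_cons, List.prod_cons,
      zv_mvd (e n) (v n) (q n), mul_assoc]

lemma ok_gaps (hc : ∀ n m, (S n).τ (q n ^ m) = c m) :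
    ∀ (T : List (Option ℕ × Z)) (z : Z),
      List.IsChain (fun a b => b.1 = none → b.2 ≠ inv a.2) ((none, z) :: T) →
      Ok S v q z (gaps c (post z) T)
  | [], z, _ => trivial
  | p :: T, z, h => by
    obtain ⟨h1, h2⟩ := List.isChain_cons_cons.1 h
    refine ⟨fun hp n => ?_, ok_gaps hc T p.2 ?_⟩
    · obtain ⟨o, z'⟩ := p
      cases o with
      | none => exact absurd hp (h1 rfl)
      | some m =>
        dsimp only at hp ⊢
        subst hp
        obtain ⟨e1, e2⟩ := mon_post_pre (v n) (q n) z
        rw [gv_gapOf, Option.elim_some, Std.τ, (S n).tau_comm, ← mul_assoc, e2, one_mul, map_sub,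
          map_smul, inner_sub_right, inner_smul_right, inner_self_eq_norm_sq_to_K, (S n).norm_one]
        show (S n).τ (q n ^ m) - _ = 0
        simp [hc n m]
    · cases T with
      | nil => exact List.isChain_singleton _
      | cons b T => exact List.isChain_cons_cons.2 (List.isChain_cons_cons.1 h2)

lemma toks_spec : ∀ L : List (ℕ ⊕ FreeGroup (Fin 3)), (∀ h, Sum.inr h ∈ L → h ≠ 1) →
    L.IsChain (fun a b => Sum.isLeft a ≠ Sum.isLeft b) →
    ((toks L).1.IsChain (fun a b => b.1 = none → b.2 ≠ inv a.2)) ∧
    (∀ m L', L = Sum.inl m :: L' → ∀ p ∈ (toks L).1.head?, p.1 ≠ none) ∧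
    (∀ h L', L = Sum.inr h :: L' → ∃ p ∈ (toks L).1.head?, p.1 = none) ∧
    ((toks L).1 = [] → L = [] ∧ (toks L).2 = none ∨ ∃ m, L = [Sum.inl m] ∧ (toks L).2 = some m)
  | [], _, _ => by simp [toks]
  | Sum.inr h :: L, hne, hch => by
    obtain ⟨i1, i2, -, -⟩ := toks_spec L (fun h' hh => hne h' (List.mem_cons_of_mem _ hh)) hch.tail
    have hw : h.toWord ≠ [] := fun e => hne h (List.mem_cons_self ..)
      (FreeGroup.toWord_eq_nil_iff.1 e)
    refine ⟨?_, by simp, fun _ _ _ => ?_, fun e => absurd (List.append_eq_nil_iff.1 e).1 (by simpa using hw)⟩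
    · refine List.isChain_append.2 ⟨?_, i1, fun a _ b hb hnone => ?_⟩
      · rw [List.isChain_map]
        exact (FreeGroup.isReduced_toWord (x := h)).imp fun a b hab _ => no_cancel.1 hab
      · exfalso
        cases L with
        | nil => simp [toks] at hb
        | cons x L =>
          cases x with
          | inl m => exact i2 m L rfl b hb hnone
          | inr h' => simp at hch
    · obtain ⟨z, w, e⟩ := List.exists_cons_of_ne_nil hw
      exact ⟨(none, z), by simp [toks, e], rfl⟩
  | Sum.inl m :: L, hne, hch => by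
    obtain ⟨i1, -, i3, i4⟩ := toks_spec L (fun h' hh => hne h' (List.mem_cons_of_mem _ hh)) hch.tail
    rcases hT : (toks L).1 with _ | ⟨p, T⟩
    · have hL : L = [] := by
        rcases i4 hT with ⟨rfl, -⟩ | ⟨m', rfl, -⟩
        · rfl
        · simp at hch
      subst hL
      simp [toks]
    · simp only [toks, hT]
      rw [hT] at i1
      refine ⟨?_, by simp, by simp, by simp⟩
      cases T with
      | nil => exact List.isChain_singleton _
      | cons b T => exact List.isChain_cons_cons.2 (List.isChain_cons_cons.1 i1)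

/-- The blocks of `q` and the moved tuple. -/
noncomputable def qblk (e : ∀ n, Fin 3 → unitary (A n)) (v : ∀ n, unitary (A n)) (q : ∀ n, A n)
    (c : ℕ → ℂ) (n : ℕ) : ℕ ⊕ FreeGroup (Fin 3) → A n :=
  Sum.elim (fun m => q n ^ m - c m • 1) fun h => (wordHom (mvd (e n) (v n)) h : A n)

lemma prod_toks (n : ℕ) : ∀ L : List (ℕ ⊕ FreeGroup (Fin 3)), (∀ h, Sum.inr h ∈ L → h ≠ 1) →
    L.IsChain (fun a b => Sum.isLeft a ≠ Sum.isLeft b) →
    (L.map (qblk e v q c n)).prod =
      ((toks L).1.map fun p => (p.1.elim 1 fun m => q n ^ m - c m • 1) *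
        zv (mvd (e n) (v n)) p.2).prod * (toks L).2.elim 1 fun m => q n ^ m - c m • 1
  | [], _, _ => by simp [toks]
  | Sum.inr h :: L, hne, hch => by
    rw [List.map_cons, List.prod_cons,
      prod_toks n L (fun h' hh => hne h' (List.mem_cons_of_mem _ hh)) hch.tail]
    simp only [toks, qblk, Sum.elim_inr, List.map_append, List.prod_append, List.map_map,
      mul_assoc]
    conv_lhs => rw [← FreeGroup.mk_toWord (x := h), coe_wordHom_mk]
    simp [Function.comp_def]
  | Sum.inl m :: L, hne, hch => by
    have hne' : ∀ h, Sum.inr h ∈ L → h ≠ 1 := fun h' hh => hne h' (List.mem_cons_of_mem _ hh)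
    obtain ⟨-, -, i3, i4⟩ := toks_spec L hne' hch.tail
    rw [List.map_cons, List.prod_cons, prod_toks n L hne' hch.tail]
    rcases hT : (toks L).1 with _ | ⟨p, T⟩
    · rcases i4 hT with ⟨rfl, -⟩ | ⟨m', rfl, -⟩
      · simp [toks, qblk]
      · simp at hch
    · have hp : p.1 = none := by
        cases L with
        | nil => simp [toks] at hT
        | cons x L =>
          cases x with
          | inl m' => simp at hch
          | inr h =>
            obtain ⟨p', hp', e'⟩ := i3 h L rfl
            rw [hT] at hp'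
            cases hp'
            exact e'
      simp [toks, hT, qblk, hp, mul_assoc]

/-- Alternating blocks of centred powers and nontrivial words in the moved tuple vanish. -/
theorem merge_free (hS : CarFree S e v q) (hq : ∀ n, ‖q n‖ ≤ 2)
    (hc : ∀ n m, (S n).τ (q n ^ m) = c m) (L : List (ℕ ⊕ FreeGroup (Fin 3))) (hL : L ≠ [])
    (hne : ∀ h, Sum.inr h ∈ L → h ≠ 1) (hch : L.IsChain (fun a b => Sum.isLeft a ≠ Sum.isLeft b)) :
    Tendsto (fun n => (S n).τ (L.map (qblk e v q c n)).prod) atTop (𝓝 0) := by
  obtain ⟨h1, -, -, h4⟩ := toks_spec L hne hch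
  simp only [prod_toks _ L hne hch]
  rcases hT : (toks L).1 with _ | ⟨⟨o, z⟩, T⟩
  · rcases h4 hT with ⟨h, -⟩ | ⟨m, -, hm⟩
    · exact absurd h hL
    · refine tendsto_const_nhds.congr fun n => ?_
      simp [hm, Std.τ, (S n).norm_one,
        show ⟪(S n).ι 1, (S n).ι (q n ^ m)⟫_ℂ = c m from hc n m]
  · rw [hT] at h1
    refine (tendsto_start hS hq (gapOf c [] o (pre z)) z (gaps c (post z) T)
      (gapOf c (lastPost (post z) T) (toks L).2 []) (ok_gaps hc T z ?_)).congr fun n => ?_
    · cases T with
      | nil => exact List.isChain_singleton _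
      | cons b T => exact List.isChain_cons_cons.2 (List.isChain_cons_cons.1 h1)
    · have := rest_gaps (e := e) (v := v) (q := q) (c := c) n ((o, z) :: T) [] (toks L).2
      simp only [gaps, lastPost] at this
      rw [this]
      simp [show mon (v n) (q n) [] = 1 by rfl]

end VP085.Step
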