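import Vale.Agent.P085.Step.PhaseCalc

/-!
P085, step: phases of asymptotically semicircular elements are asymptotically free Haar unitaries,
free from the coefficient letters.
-/

open scoped InnerProductSpace
open Filter Topology Polynomial

namespace VP085

open VP086

variable {k : ℕ} {B : Type} {A H : ℕ → Type} [∀ r, CStarAlgebra (A r)]
  [∀ r, NormedAddCommGroup (H r)] [∀ r, InnerProductSpace ℂ (H r)]

namespace Phase

open Wick

section Std

variable {A : Type} [CStarAlgebra A] {H : Type} [NormedAddCommGroup H] [InnerProductSpace ℂ H]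
  (S : Std A H)

/-- The trace as a linear map. -/
noncomputable def tauL : A →ₗ[ℂ] ℂ := (innerₛₗ ℂ (S.ι 1)).comp S.ι

lemma tauL_apply (a : A) : tauL S a = S.τ a := rfl

lemma tau_one : S.τ (1 : A) = 1 := by
  rw [Std.τ, inner_self_eq_norm_sq_to_K, S.norm_one]; simp

lemma norm_tau_le (a : A) : ‖S.τ a‖ ≤ ‖a‖ := by
  refine (norm_inner_le_norm _ _).trans ?_
  rw [S.norm_one, one_mul]
  exact Calc.norm_ι_le S a

lemma norm_one_le : ‖(1 : A)‖ ≤ 1 := by
  have h := CStarRing.norm_star_mul_self (x := (1 : A))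
  rw [star_one, one_mul] at h
  nlinarith [norm_nonneg (1 : A)]

lemma norm_unitary_le (u : unitary A) : ‖(u : A)‖ ≤ 1 := by
  have h := CStarRing.norm_star_mul_self (x := (u : A))
  rw [Unitary.coe_star_mul_self] at h
  nlinarith [norm_one_le (A := A), norm_nonneg (u : A)]

lemma norm_tau_mul_mul_le (a e p : A) : ‖S.τ (a * e * p)‖ ≤ ‖a‖ * ‖S.ι p‖ * ‖S.ι e‖ := by
  have h : S.τ (a * e * p) = S.τ (p * a * e) := by
    show ⟪S.ι 1, S.ι (a * e * p)⟫_ℂ = ⟪S.ι 1, S.ι (p * a * e)⟫_ℂ
    rw [S.tau_comm (a * e) p, mul_assoc]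
  rw [h, show p * a * e = star (star (p * a)) * e by rw [star_star], Calc.tau_eq_inner S]
  refine (norm_inner_le_norm _ _).trans (mul_le_mul_of_nonneg_right ?_ (norm_nonneg _))
  rw [Calc.norm_ι_star]
  exact S.right_le a p

end Std

variable (S : ∀ r, Std (A r) (H r)) (g : ∀ r, Fin k → A r) (x : ∀ r, B → A r)

/-- The moments of the coefficient letters. -/
noncomputable def phis (r : ℕ) (m : List B) : ℂ := (S r).τ (m.map (x r)).prod

/-- Evaluation of formal combinations. -/
noncomputable def ev (r : ℕ) : Alg (Fin k) B →ₐ[ℂ] A r :=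
  MonoidAlgebra.lift ℂ (A r) _ (FreeMonoid.lift (Sum.elim (g r) (x r)))

lemma ev_wrd (r : ℕ) (l : List (Fin k ⊕ B)) :
    ev g x r (wrd l) = (l.map (Sum.elim (g r) (x r))).prod := by
  rw [ev, wrd, MonoidAlgebra.lift_of, FreeMonoid.lift_apply]
  rfl

/-- Combinations of words with bounded coefficients. -/
noncomputable def adm : Submodule ℂ (ℕ → Alg (Fin k) B) :=
  Submodule.span ℂ {X | ∃ (c : ℕ → ℂ) (K : ℝ) (l : List (Fin k ⊕ B)),
    (∀ r, ‖c r‖ ≤ K) ∧ X = fun r => c r • wrd l}

lemma smul_mem_adm (c : ℕ → ℂ) (K : ℝ) (hc : ∀ r, ‖c r‖ ≤ K) (l : List (Fin k ⊕ B)) :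
    (fun r => c r • wrd l) ∈ adm (k := k) (B := B) :=
  Submodule.subset_span ⟨c, K, l, hc, rfl⟩

lemma const_mem_adm (Z : Alg (Fin k) B) : (fun _ => Z) ∈ adm (k := k) (B := B) := by
  induction Z using MonoidAlgebra.induction_on with
  | of m => simpa [wrd] using smul_mem_adm (fun _ => 1) 1 (fun _ => by simp) m.toList
  | add Z Z' h h' => exact add_mem h h'
  | smul c Z h => exact Submodule.smul_mem _ c h

lemma mul_mem_adm {X Y : ℕ → Alg (Fin k) B} (hX : X ∈ adm) (hY : Y ∈ adm) :
    X * Y ∈ adm (k := k) (B := B) := by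
  induction hX using Submodule.span_induction with
  | mem X hX =>
    obtain ⟨c, K, l, hc, rfl⟩ := hX
    induction hY using Submodule.span_induction with
    | mem Y hY =>
      obtain ⟨d, L, l', hd, rfl⟩ := hY
      have : ((fun r => c r • wrd l) * fun r => d r • wrd l') =
          fun r => (c r * d r) • wrd (l ++ l') := by
        funext r
        simp [wrd_append, smul_smul, mul_comm]
      rw [this]
      refine smul_mem_adm _ (K * L) (fun r => ?_) _
      rw [norm_mul]
      exact mul_le_mul (hc r) (hd r) (norm_nonneg _) ((norm_nonneg _).trans (hc r))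
    | zero => simp
    | add Y Y' _ _ h h' => rw [mul_add]; exact add_mem h h'
    | smul a Y _ h => rw [mul_smul_comm]; exact Submodule.smul_mem _ a h
  | zero => simp
  | add X X' _ _ h h' => rw [add_mul]; exact add_mem h h'
  | smul a X _ h => rw [smul_mul_assoc]; exact Submodule.smul_mem _ a h

lemma prod_mem_adm (l : List (ℕ → Alg (Fin k) B)) (h : ∀ X ∈ l, X ∈ adm) :
    l.prod ∈ adm (k := k) (B := B) := by
  induction l with
  | nil => exact const_mem_adm 1
  | cons X l ih =>
    rw [List.prod_cons]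
    exact mul_mem_adm (h X (by simp)) (ih fun Y hY => h Y (List.mem_cons_of_mem _ hY))

lemma phi_one (r : ℕ) : phis S x r [] = 1 := by simp [phis, tau_one]

/-- The hypothesis: the moments are asymptotically those of the Wick functional. -/
def Near : Prop :=
  ∀ l : List (Fin k ⊕ B), Tendsto (fun r => (S r).τ (l.map (Sum.elim (g r) (x r))).prod -
    wick (fun m => (S r).τ (m.map (x r)).prod) l.length l) atTop (𝓝 0)

variable {S g x}

lemma tendsto_adm (hw : Near S g x) {X : ℕ → Alg (Fin k) B} (hX : X ∈ adm) :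
    Tendsto (fun r => tauL (S r) (ev g x r (X r)) - Phi (phis S x r) (X r)) atTop (𝓝 0) := by
  induction hX using Submodule.span_induction with
  | mem X hX =>
    obtain ⟨c, K, l, hc, rfl⟩ := hX
    simp only [map_smul, ev_wrd, smul_eq_mul, ← mul_sub]
    refine squeeze_zero_norm (fun r => (norm_mul_le _ _).trans
      (mul_le_mul_of_nonneg_right (hc r) (norm_nonneg _))) ?_
    rw [← mul_zero K, ← norm_zero (E := ℂ)]
    refine Tendsto.const_mul K (Tendsto.norm ?_)
    exact (hw l).congr fun r => by rw [Phi, lin_wrd, tauL_apply]; rfl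
  | zero => simp
  | add X Y _ _ h h' =>
    rw [← add_zero (0 : ℂ)]
    exact (h.add h').congr fun r => by simp only [Pi.add_apply, map_add]; ring
  | smul a X _ h =>
    rw [← mul_zero a]
    exact (h.const_mul a).congr fun r => by
      simp only [Pi.smul_apply, map_smul, smul_eq_mul]; ring

lemma bdd_letters {C : B → ℝ} (hx : ∀ r b, ‖x r b‖ ≤ C b) (m : List B) :
    ∃ K, 0 ≤ K ∧ ∀ r, ‖(m.map (x r)).prod‖ ≤ K := by
  induction m with
  | nil => exact ⟨1, zero_le_one, fun r => by simpa using norm_one_le⟩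
  | cons b m ih =>
    obtain ⟨K, hK0, hK⟩ := ih
    refine ⟨max (C b) 0 * K, by positivity, fun r => ?_⟩
    rw [List.map_cons, List.prod_cons]
    exact (norm_mul_le _ _).trans
      (mul_le_mul ((hx r b).trans (le_max_left _ _)) (hK r) (norm_nonneg _) (le_max_right _ _))

lemma bdd_wick {C : B → ℝ} (hx : ∀ r b, ‖x r b‖ ≤ C b) : ∀ (fuel : ℕ) (l : List (Fin k ⊕ B)),
    ∃ K, ∀ r, ‖wick (phis S x r) fuel l‖ ≤ K := by
  have hb : ∀ m, ∃ K, ∀ r, ‖phis S x r m‖ ≤ K := fun m => by
    obtain ⟨K, -, hK⟩ := bdd_letters hx m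
    exact ⟨K, fun r => (norm_tau_le _ _).trans (hK r)⟩
  intro fuel
  induction fuel with
  | zero => intro l; simpa [wick] using hb _
  | succ fuel ih =>
    intro l
    rcases split_word l with ⟨m, rfl⟩ | ⟨p, i, rest, rfl⟩
    · simpa [wick_inr] using hb m
    · choose K hK using ih
      refine ⟨∑ j ∈ Finset.range rest.length,
        |K (rest.take j)| * |K (p.map Sum.inr ++ rest.drop (j + 1))|, fun r => ?_⟩
      simp only [wick, dropWhile_pre, takeWhile_pre]
      refine (norm_sum_le _ _).trans (Finset.sum_le_sum fun j _ => ?_)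
      split_ifs
      · rw [norm_mul]
        exact mul_le_mul ((hK _ r).trans (le_abs_self _)) ((hK _ r).trans (le_abs_self _))
          (norm_nonneg _) (abs_nonneg _)
      · rw [norm_zero]; positivity

lemma bdd_adm {C : B → ℝ} (hx : ∀ r b, ‖x r b‖ ≤ C b) {X : ℕ → Alg (Fin k) B} (hX : X ∈ adm) :
    ∃ K, ∀ r, ‖Phi (phis S x r) (X r)‖ ≤ K := by
  induction hX using Submodule.span_induction with
  | mem X hX =>
    obtain ⟨c, K, l, hc, rfl⟩ := hX
    obtain ⟨K', hK'⟩ := bdd_wick (S := S) hx l.length l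
    refine ⟨K * K', fun r => ?_⟩
    rw [map_smul, norm_smul, Phi, lin_wrd, word]
    exact mul_le_mul (hc r) (hK' r) (norm_nonneg _) ((norm_nonneg _).trans (hc r))
  | zero => exact ⟨0, fun r => by simp⟩
  | add X Y _ _ h h' =>
    obtain ⟨K, hK⟩ := h
    obtain ⟨L, hL⟩ := h'
    exact ⟨K + L, fun r => by
      rw [Pi.add_apply, map_add]; exact (norm_add_le _ _).trans (add_le_add (hK r) (hL r))⟩
  | smul a X _ h =>
    obtain ⟨K, hK⟩ := h
    exact ⟨‖a‖ * K, fun r => by
      rw [Pi.smul_apply, map_smul, norm_smul]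
      exact mul_le_mul_of_nonneg_left (hK r) (norm_nonneg _)⟩

lemma star_adm {sg : B → B} (hs : ∀ r b, star (x r b) = x r (sg b))
    (hg : ∀ r i, IsSelfAdjoint (g r i)) {X : ℕ → Alg (Fin k) B} (hX : X ∈ adm) :
    ∃ Y ∈ adm (k := k) (B := B), ∀ r, ev g x r (Y r) = star (ev g x r (X r)) := by
  induction hX using Submodule.span_induction with
  | mem X hX =>
    obtain ⟨c, K, l, hc, rfl⟩ := hX
    refine ⟨fun r => star (c r) • wrd (l.reverse.map (Sum.map id sg)),
      smul_mem_adm _ K (fun r => by rw [norm_star]; exact hc r) _, fun r => ?_⟩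
    rw [map_smul, map_smul, star_smul, ev_wrd, ev_wrd]
    congr 1
    clear hc
    induction l with
    | nil => simp
    | cons z l ih =>
      rw [List.map_cons, List.prod_cons, star_mul, ← ih]
      rcases z with i | b <;> simp [(hg r _).star_eq, hs]
  | zero => exact ⟨0, zero_mem _, fun r => by simp⟩
  | add X Y _ _ h h' =>
    obtain ⟨X', hX', eX⟩ := h
    obtain ⟨Y', hY', eY⟩ := h'
    exact ⟨X' + Y', add_mem hX' hY', fun r => by simp [eX, eY]⟩
  | smul a X _ h =>
    obtain ⟨X', hX', eX⟩ := h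
    exact ⟨star a • X', Submodule.smul_mem _ _ hX', fun r => by simp [eX]⟩

lemma bdd_two {C : B → ℝ} (hx : ∀ r b, ‖x r b‖ ≤ C b) {sg : B → B}
    (hs : ∀ r b, star (x r b) = x r (sg b)) (hg : ∀ r i, IsSelfAdjoint (g r i)) (hw : Near S g x)
    {X : ℕ → Alg (Fin k) B} (hX : X ∈ adm) :
    ∃ K, 0 ≤ K ∧ ∀ᶠ r in atTop, ‖(S r).ι (ev g x r (X r))‖ ≤ K := by
  obtain ⟨Y, hY, eY⟩ := star_adm hs hg hX
  obtain ⟨K, hK⟩ := bdd_adm (S := S) hx (mul_mem_adm hY hX)
  have hK0 : 0 ≤ K := (norm_nonneg _).trans (hK 0)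
  refine ⟨Real.sqrt (K + 1), Real.sqrt_nonneg _, ?_⟩
  have h := (tendsto_adm hw (mul_mem_adm hY hX)).norm
  rw [norm_zero] at h
  filter_upwards [h.eventually (eventually_le_nhds zero_lt_one)] with r hr
  refine Real.le_sqrt_of_sq_le ?_
  have e : tauL (S r) (ev g x r ((Y * X) r)) = (‖(S r).ι (ev g x r (X r))‖ : ℂ) ^ 2 := by
    rw [Pi.mul_apply, map_mul, eY, tauL_apply, Calc.tau_eq_inner, inner_self_eq_norm_sq_to_K]
    rfl
  rw [e] at hr
  have h1 := norm_sub_norm_le ((‖(S r).ι (ev g x r (X r))‖ : ℂ) ^ 2)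
    (Phi (phis S x r) ((Y * X) r))
  rw [norm_pow, Complex.norm_real, norm_norm] at h1
  linarith [hK r]

variable (S g x)

/-- An exact factor. -/
noncomputable def fac (r : ℕ) : (Fin k × ℤ) ⊕ List B → A r :=
  Sum.elim (fun q => ((phase (g r q.1) ^ q.2 : unitary (A r)) : A r))
    (fun m => (m.map (x r)).prod - (S r).τ (m.map (x r)).prod • 1)

/-- The algebra of an exact factor. -/
def fkey : (Fin k × ℤ) ⊕ List B → Option (Fin k) := Sum.elim (fun q => some q.1) fun _ => none

/-- An approximate factor: centred, in the algebra of its key. -/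
def Centred (p : Option (Fin k) × (ℕ → Alg (Fin k) B)) : Prop :=
  ∀ r, Option.elim p.1 (p.2 r ∈ (base : Submodule ℂ (Alg (Fin k) B)) ∧ Phi (phis S x r) (p.2 r) = 0)
    fun i => p.2 r ∈ Submodule.span ℂ (Set.range (bar i))

lemma phi_mixed (r : ℕ) : ∀ (ps : List (Option (Fin k) × (ℕ → Alg (Fin k) B)))
    (pre : List (Blk (Fin k) B)), (∀ p ∈ ps, Centred S x p) → Good (phis S x r) pre →
    (pre.map Wick.key ++ ps.map Prod.fst).IsChain (· ≠ ·) → pre.length + ps.length ≠ 0 →
    Phi (phis S x r) (prd pre * (ps.map Prod.snd).prod r) = 0 := by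
  intro ps
  induction ps with
  | nil =>
    intro pre _ hpre _ hne
    simpa using phi_prd _ (phi_one S x r) hpre (by rintro rfl; simp at hne)
  | cons p ps ih =>
    intro pre hc hpre hch _
    obtain ⟨ky, X⟩ := p
    have hX := hc (ky, X) (by simp) r
    have main : ∀ b : Blk (Fin k) B, Wick.key b = ky →
        (∀ z, b = Sum.inr z → z ∈ (base : Submodule ℂ (Alg (Fin k) B)) ∧ Phi (phis S x r) z = 0) →
        Phi (phis S x r) (prd pre * (blkEl b * (ps.map Prod.snd).prod r)) = 0 := by
      intro b hb hz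
      have hch' : ((pre ++ [b]).map Wick.key ++ ps.map Prod.fst).IsChain (· ≠ ·) := by
        simpa [hb] using hch
      have h := ih (pre ++ [b]) (fun q hq => hc q (List.mem_cons_of_mem _ hq))
        ⟨(List.isChain_map _).1 (List.isChain_append.1 hch').1, fun z hzm => ?_⟩ hch' (by simp)
      · simpa [prd, mul_assoc] using h
      · rcases List.mem_append.1 hzm with h | h
        · exact hpre.2 z h
        · exact hz z (List.mem_singleton.1 h).symm
    rw [List.map_cons, List.prod_cons, Pi.mul_apply]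
    change Phi (phis S x r) (prd pre * (X r * (ps.map Prod.snd).prod r)) = 0
    cases ky with
    | none => exact main (Sum.inr (X r)) rfl (fun z hz => by cases hz; exact hX)
    | some i =>
      simp only [Option.elim] at hX
      generalize X r = z at hX ⊢
      induction hX using Submodule.span_induction with
      | mem z hz =>
        obtain ⟨n, rfl⟩ := hz
        exact main (Sum.inl (i, n)) rfl (fun z hz => by cases hz)
      | zero => simp
      | add y z _ _ hy hz => simp [add_mul, mul_add, hy, hz]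
      | smul c y _ hy => simp [hy]

lemma aeval_mem_bar (i : Fin k) {P : ℂ[X]} (hP : (P.sum fun j c => c * mom j) = 0) :
    aeval (let' i : Alg (Fin k) B) P ∈ Submodule.span ℂ (Set.range (bar i)) := by
  have e : aeval (let' i : Alg (Fin k) B) P = P.sum fun j c => c • bar i j := by
    rw [Polynomial.aeval_def, Polynomial.eval₂_eq_sum]
    have h : (P.sum fun j c => c • bar (B := B) i j) =
        (P.sum fun j c => c • (let' i : Alg (Fin k) B) ^ j) -
          (P.sum fun j c => c * mom j) • (1 : Alg (Fin k) B) := by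
      simp [Polynomial.sum_def, Finset.sum_smul, ← Finset.sum_sub_distrib, bar, smul_sub, smul_smul]
    rw [h, hP, zero_smul, sub_zero]
    simp [Algebra.smul_def]
  rw [e]
  exact Submodule.sum_mem _ fun j _ => Submodule.smul_mem _ _ (Submodule.subset_span ⟨j, rfl⟩)

variable {S g x}

lemma exists_piece (hg : ∀ r i, IsSelfAdjoint (g r i)) (hw : Near S g x) (i : Fin k) {n : ℤ} (hn : n ≠ 0)
    {δ : ℝ} (hδ : 0 < δ) :
    ∃ P : ℕ → Alg (Fin k) B, P ∈ adm ∧ Centred S x (some i, P) ∧
      ∀ᶠ r in atTop, ‖(S r).ι (fac S g x r (Sum.inl (i, n)) - ev g x r (P r))‖ ≤ δ := by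
  obtain ⟨P, α, β, M, hP0, hα, hβ, hdom, hsum⟩ := exists_approx hn (pow_pos hδ 2)
  refine ⟨fun _ => aeval (let' i) P, const_mem_adm _, fun r => aeval_mem_bar i hP0, ?_⟩
  have hmom : Tendsto (fun r => ((S r).τ (g r i ^ (2 * M))).re) atTop
      (𝓝 (VP086.Model.scMoment (2 * M))) := by
    have h := tendsto_adm hw (const_mem_adm (let' i ^ (2 * M)))
    have h2 : Tendsto (fun r => (S r).τ (g r i ^ (2 * M))) atTop (𝓝 (mom (2 * M))) := by
      refine (tendsto_sub_nhds_zero_iff.1 (h.congr fun r => ?_))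
      rw [phi_pow _ (phi_one S x r), map_pow, let', ev_wrd, tauL_apply]
      simp
    simpa [mom, Function.comp_def] using (Complex.continuous_re.tendsto _).comp h2
  have hlim : Tendsto (fun r => α + β * ((S r).τ (g r i ^ (2 * M))).re) atTop
      (𝓝 (α + β * VP086.Model.scMoment (2 * M))) := (hmom.const_mul β).const_add α
  filter_upwards [hlim.eventually (eventually_le_nhds hsum)] with r hr
  have h := (norm_sub_aeval_le (S r) (hg r i) n P M hα hβ hdom).trans hr
  rw [← Polynomial.aeval_algHom_apply]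
  simp only [fac, Sum.elim_inl, phase_zpow (hg r i), let', ev_wrd, List.map_cons, List.map_nil,
    List.prod_cons, List.prod_nil, mul_one]
  exact (sq_le_sq₀ (norm_nonneg _) hδ.le).1 h

lemma approximate {C : B → ℝ} (hx : ∀ r b, ‖x r b‖ ≤ C b) {sg : B → B}
    (hs : ∀ r b, star (x r b) = x r (sg b)) (hg : ∀ r i, IsSelfAdjoint (g r i)) (hw : Near S g x) :
    ∀ (L : List ((Fin k × ℤ) ⊕ List B)), (∀ q, Sum.inl q ∈ L → q.2 ≠ 0) → ∀ δ : ℝ, 0 < δ →
    ∃ ps : List (Option (Fin k) × (ℕ → Alg (Fin k) B)), ps.map Prod.fst = L.map fkey ∧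
      (∀ p ∈ ps, p.2 ∈ adm ∧ Centred S x p) ∧
      ∀ᶠ r in atTop, ∀ a : A r, ‖(S r).τ (a * (L.map (fac S g x r)).prod) -
        (S r).τ (a * ev g x r ((ps.map Prod.snd).prod r))‖ ≤ δ * ‖a‖ := by
  intro L
  induction L with
  | nil =>
    intro _ δ hδ
    refine ⟨[], rfl, by simp, Eventually.of_forall fun r a => ?_⟩
    simp only [List.map_nil, List.prod_nil, Pi.one_apply, map_one, sub_self, norm_zero]
    positivity
  | cons e L ih =>
    intro hL δ hδ
    have hL' := fun q hq => hL q (List.mem_cons_of_mem _ hq)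
    rcases e with ⟨i, n⟩ | m
    · obtain ⟨ps, hkey, hps, hev⟩ := ih hL' (δ / 2) (by positivity)
      obtain ⟨K, hK0, hK⟩ := bdd_two hx hs hg hw (prod_mem_adm (ps.map Prod.snd)
        fun X hX => by obtain ⟨p, hp, rfl⟩ := List.mem_map.1 hX; exact (hps p hp).1)
      obtain ⟨P, hPa, hPc, hP⟩ := exists_piece hg hw i (hL (i, n) (by simp))
        (show 0 < δ / (2 * (K + 1)) by positivity)
      refine ⟨(some i, P) :: ps, by simp [hkey, fkey], ?_, ?_⟩
      · rintro p (hp | hp)
        exact ⟨hPa, hPc⟩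
        exact hps p (by assumption)
      filter_upwards [hev, hK, hP] with r h1 h2 h3 a
      set T := ev g x r ((ps.map Prod.snd).prod r)
      set u := fac S g x r (Sum.inl (i, n))
      have hu : ‖u‖ ≤ 1 := norm_unitary_le _
      have e1 : (S r).τ (a * (((Sum.inl (i, n)) :: L).map (fac S g x r)).prod) -
          (S r).τ (a * ev g x r ((((some i, P) :: ps).map Prod.snd).prod r)) =
          ((S r).τ (a * u * (L.map (fac S g x r)).prod) - (S r).τ (a * u * T)) +
            (S r).τ (a * (u - ev g x r (P r)) * T) := by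
        simp only [← tauL_apply, List.map_cons, List.prod_cons, Pi.mul_apply, map_mul, mul_sub,
          sub_mul, map_sub, mul_assoc]
        abel
      rw [e1]
      refine (norm_add_le _ _).trans ?_
      have g1 : δ / 2 * ‖a * u‖ ≤ δ / 2 * ‖a‖ :=
        mul_le_mul_of_nonneg_left ((norm_mul_le _ _).trans
          (mul_le_of_le_one_right (norm_nonneg _) hu)) (by positivity)
      have g2 : ‖a‖ * ‖(S r).ι T‖ * ‖(S r).ι (u - ev g x r (P r))‖ ≤
          ‖a‖ * (K + 1) * (δ / (2 * (K + 1))) :=
        mul_le_mul (mul_le_mul_of_nonneg_left (h2.trans (by linarith)) (norm_nonneg _)) h3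
          (norm_nonneg _) (by positivity)
      have g3 : ‖a‖ * (K + 1) * (δ / (2 * (K + 1))) = δ / 2 * ‖a‖ := by field_simp
      linarith [h1 (a * u), norm_tau_mul_mul_le (S r) a (u - ev g x r (P r)) T]
    · obtain ⟨Km, hKm0, hKm⟩ := bdd_letters hx m
      obtain ⟨ps, hkey, hps, hev⟩ := ih hL' (δ / (2 * Km + 1)) (by positivity)
      set P : ℕ → Alg (Fin k) B := fun r =>
        wrd (m.map Sum.inr) - phis S x r m • wrd [] with hP
      have hPa : P ∈ adm := sub_mem (const_mem_adm _)
        (smul_mem_adm _ Km (fun r => (norm_tau_le _ _).trans (hKm r)) _)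
      have hPc : Centred S x (none, P) := fun r => by
        refine ⟨sub_mem (Submodule.subset_span ⟨m, rfl⟩)
          (Submodule.smul_mem _ _ (Submodule.subset_span ⟨[], rfl⟩)), ?_⟩
        rw [hP, map_sub, map_smul, Phi, lin_wrd, lin_wrd, word_inr]
        have := word_inr (ι := Fin k) (phis S x r) []
        rw [List.map_nil] at this
        rw [this, phi_one, smul_eq_mul, mul_one, sub_self]
      have hPe : ∀ r, ev g x r (P r) = fac S g x r (Sum.inr m) := fun r => by
        simp [hP, fac, ev_wrd, phis, List.map_map, Function.comp_def]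
      refine ⟨(none, P) :: ps, by simp [hkey, fkey], ?_, ?_⟩
      · rintro p (hp | hp)
        exact ⟨hPa, hPc⟩
        exact hps p (by assumption)
      filter_upwards [hev] with r h1 a
      have hn : ‖fac S g x r (Sum.inr m)‖ ≤ 2 * Km + 1 := by
        refine (norm_sub_le _ _).trans ?_
        rw [norm_smul]
        have := mul_le_mul (norm_tau_le (S r) (m.map (x r)).prod) (norm_one_le (A := A r))
          (norm_nonneg _) (norm_nonneg _)
        linarith [hKm r]
      have h := h1 (a * fac S g x r (Sum.inr m))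
      simp only [List.map_cons, List.prod_cons, Pi.mul_apply, map_mul, hPe, ← mul_assoc]
      refine h.trans ((mul_le_mul_of_nonneg_left ((norm_mul_le _ _).trans
        (mul_le_mul_of_nonneg_left hn (norm_nonneg _))) (by positivity)).trans (le_of_eq ?_))
      field_simp

theorem fac_free {C : B → ℝ} (hx : ∀ r b, ‖x r b‖ ≤ C b) {sg : B → B}
    (hs : ∀ r b, star (x r b) = x r (sg b)) (hg : ∀ r i, IsSelfAdjoint (g r i)) (hw : Near S g x)
    (L : List ((Fin k × ℤ) ⊕ List B)) (hne : L ≠ []) (hL : ∀ q, Sum.inl q ∈ L → q.2 ≠ 0)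
    (hch : (L.map fkey).IsChain (· ≠ ·)) :
    Tendsto (fun r => (S r).τ (L.map (fac S g x r)).prod) atTop (𝓝 0) := by
  rw [Metric.tendsto_nhds]
  intro ε hε
  obtain ⟨ps, hkey, hps, hev⟩ := approximate hx hs hg hw L hL (ε / 3) (by positivity)
  have hlen : ps.length = L.length := by simpa using congrArg List.length hkey
  have hz : ∀ r, Phi (phis S x r) ((ps.map Prod.snd).prod r) = 0 := fun r => by
    have h := phi_mixed S x r ps [] (fun p hp => (hps p hp).2) ⟨List.isChain_nil, by simp⟩
      (by simpa [hkey] using hch) (by simpa [hlen] using hne)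
    simpa [prd] using h
  have h2 := tendsto_adm hw (prod_mem_adm (ps.map Prod.snd)
    fun X hX => by obtain ⟨p, hp, rfl⟩ := List.mem_map.1 hX; exact (hps p hp).1)
  rw [Metric.tendsto_nhds] at h2
  filter_upwards [hev, h2 (ε / 3) (by positivity)] with r h1 h3
  rw [dist_zero_right] at h3 ⊢
  rw [hz r, sub_zero, tauL_apply] at h3
  have h := h1 1
  rw [one_mul, one_mul] at h
  have h5 := norm_sub_norm_le (S r |>.τ (L.map (fac S g x r)).prod)
    ((S r).τ (ev g x r ((ps.map Prod.snd).prod r)))
  have h6 : ε / 3 * ‖(1 : A r)‖ ≤ ε / 3 := mul_le_of_le_one_right (by positivity) norm_one_le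
  linarith

/-! ### Reduced words -/

/-- The element of a list of powers of generators. -/
def powProd (L : List (Fin k × ℤ)) : FreeGroup (Fin k) :=
  (L.map fun q => FreeGroup.of q.1 ^ q.2).prod

lemma normal_form (h : FreeGroup (Fin k)) : ∃ L : List (Fin k × ℤ),
    L.IsChain (fun a b => a.1 ≠ b.1) ∧ (∀ q ∈ L, q.2 ≠ 0) ∧ powProd L = h := by
  have step : ∀ (i : Fin k) (s : ℤ), s ≠ 0 → ∀ L : List (Fin k × ℤ),
      L.IsChain (fun a b => a.1 ≠ b.1) → (∀ q ∈ L, q.2 ≠ 0) → ∃ L' : List (Fin k × ℤ),
        L'.IsChain (fun a b => a.1 ≠ b.1) ∧ (∀ q ∈ L', q.2 ≠ 0) ∧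
          powProd L' = FreeGroup.of i ^ s * powProd L := by
    intro i s hs L hc hn
    match L with
    | [] => exact ⟨[(i, s)], List.isChain_singleton _, by simpa using hs, by simp [powProd]⟩
    | (j, m) :: T =>
      obtain ⟨hc1, hc2⟩ := List.isChain_cons.1 hc
      by_cases hji : j = i
      · subst hji
        by_cases hz : s + m = 0
        · refine ⟨T, hc2, fun q hq => hn q (List.mem_cons_of_mem _ hq), ?_⟩
          simp [powProd, ← mul_assoc, ← zpow_add, hz]
        · refine ⟨(j, s + m) :: T, List.isChain_cons.2 ⟨hc1, hc2⟩, ?_, ?_⟩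
          · intro q hq
            rcases List.mem_cons.1 hq with rfl | hq
            · exact hz
            · exact hn q (List.mem_cons_of_mem _ hq)
          · simp [powProd, zpow_add, mul_assoc]
      · refine ⟨(i, s) :: (j, m) :: T, List.isChain_cons_cons.2 ⟨Ne.symm hji, hc⟩, ?_,
          by simp [powProd]⟩
        intro q hq
        rcases List.mem_cons.1 hq with rfl | hq
        · exact hs
        · exact hn q hq
  have hmem : h ∈ Subgroup.closure (Set.range (FreeGroup.of (α := Fin k))) := by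
    rw [FreeGroup.closure_range_of]; trivial
  induction hmem using Subgroup.closure_induction_left with
  | one => exact ⟨[], List.isChain_nil, by simp, rfl⟩
  | mul_left y hy z _ hz =>
    obtain ⟨i, rfl⟩ := hy
    obtain ⟨L, hc, hn, rfl⟩ := hz
    simpa using step i 1 one_ne_zero L hc hn
  | inv_mul_cancel y hy z _ hz =>
    obtain ⟨i, rfl⟩ := hy
    obtain ⟨L, hc, hn, rfl⟩ := hz
    simpa using step i (-1) (by decide) L hc hn

end Phase

/-- A block: a word in the phases, or a centred word in the coefficient letters. -/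
noncomputable abbrev block {A : Type} [CStarAlgebra A] {H : Type} [NormedAddCommGroup H]
    [InnerProductSpace ℂ H] (u : Fin k → unitary A) (x : B → A) (S : Std A H) :
    FreeGroup (Fin k) ⊕ List B → A :=
  Sum.elim (fun h => (wordHom u h : A)) fun m => (m.map x).prod - S.τ (m.map x).prod • 1

lemma Phase.expand (S : ∀ r, Std (A r) (H r)) (g : ∀ r, Fin k → A r) (x : ∀ r, B → A r) :
    ∀ l : List (FreeGroup (Fin k) ⊕ List B), (∀ h, Sum.inl h ∈ l → h ≠ 1) →
    l.IsChain (fun a b => a.isLeft ≠ b.isLeft) → ∃ L : List ((Fin k × ℤ) ⊕ List B),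
      (L.map Phase.fkey).IsChain (· ≠ ·) ∧ (∀ q, Sum.inl q ∈ L → q.2 ≠ 0) ∧
      (L.head?.map Sum.isLeft = l.head?.map Sum.isLeft) ∧
      ∀ r, (L.map (Phase.fac S g x r)).prod =
        (l.map (block (fun i => phase (g r i)) (x r) (S r))).prod := by
  intro l
  induction l with
  | nil => intro _ _; exact ⟨[], List.isChain_nil, by simp, rfl, fun r => rfl⟩
  | cons b l ih =>
    intro h1 hc
    obtain ⟨hb, hc'⟩ := List.isChain_cons.1 hc
    obtain ⟨L, hL1, hL2, hL3, hL4⟩ := ih (fun h hh => h1 h (List.mem_cons_of_mem _ hh)) hc'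
    have hhead : ∀ e ∈ L.head?, e.isLeft ≠ b.isLeft := by
      intro e he
      rw [Option.mem_def] at he
      rw [he] at hL3
      cases hl : l.head? with
      | none => simp [hl] at hL3
      | some c =>
        simp only [hl, Option.map_some, Option.some.injEq] at hL3
        rw [hL3]
        exact (hb c hl).symm
    rcases b with h | m
    · obtain ⟨T, hT1, hT2, rfl⟩ := Phase.normal_form h
      have hT0 : T ≠ [] := by rintro rfl; exact h1 (Phase.powProd []) (by simp) (by simp [Phase.powProd])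
      refine ⟨T.map Sum.inl ++ L, ?_, ?_, ?_, fun r => ?_⟩
      · rw [List.map_append, List.map_map]
        refine List.isChain_append.2 ⟨(List.isChain_map _).2 (hT1.imp fun a b hab => ?_), hL1, ?_⟩
        · simpa [Phase.fkey] using hab
        · intro a ha c hc
          rw [List.head?_map, Option.mem_def, Option.map_eq_some_iff] at hc
          obtain ⟨e, he, rfl⟩ := hc
          have := hhead e he
          rw [List.getLast?_map, Option.mem_def, Option.map_eq_some_iff] at ha
          obtain ⟨q, -, rfl⟩ := ha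
          rcases e with e | e
          · simp at this
          · simp [Phase.fkey]
      · intro q hq
        rcases List.mem_append.1 hq with hq | hq
        · obtain ⟨q', hq', e⟩ := List.mem_map.1 hq
          cases e
          exact hT2 q hq'
        · exact hL2 q hq
      · obtain ⟨q, T', rfl⟩ := List.exists_cons_of_ne_nil hT0
        rfl
      · rw [List.map_append, List.prod_append, hL4, List.map_cons, List.prod_cons]
        congr 1
        rw [block, Sum.elim_inl, Phase.powProd, map_list_prod, List.map_map, List.map_map]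
        show _ = (unitary (A r)).subtype _
        rw [map_list_prod, List.map_map]
        congr 1
        refine List.map_congr_left fun q _ => ?_
        simp [Phase.fac, wordHom, map_zpow]
    · refine ⟨Sum.inr m :: L, List.isChain_cons.2 ⟨?_, hL1⟩, ?_, rfl, fun r => ?_⟩
      · intro c hc
        rw [List.head?_map, Option.mem_def, Option.map_eq_some_iff] at hc
        obtain ⟨e, he, rfl⟩ := hc
        have := hhead e he
        rcases e with e | e
        · simp [Phase.fkey]
        · simp at this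
      · intro q hq
        exact hL2 q (by simpa using hq)
      · rw [List.map_cons, List.prod_cons, hL4]
        rfl

/-- Phases of asymptotically semicircular elements over `x` are asymptotically free Haar
unitaries, free from `x`. -/
theorem phase_free (S : ∀ r, Std (A r) (H r)) (g : ∀ r, Fin k → A r) (x : ∀ r, B → A r)
    (C : B → ℝ) (hg : ∀ r i, IsSelfAdjoint (g r i)) (hx : ∀ r b, ‖x r b‖ ≤ C b)
    (sg : B → B) (hs : ∀ r b, star (x r b) = x r (sg b))
    (hw : ∀ l : List (Fin k ⊕ B), Tendsto (fun r => (S r).τ (l.map (Sum.elim (g r) (x r))).prod -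
      wick (fun m => (S r).τ (m.map (x r)).prod) l.length l) atTop (𝓝 0)) :
    ∀ l : List (FreeGroup (Fin k) ⊕ List B), l ≠ [] → (∀ h, Sum.inl h ∈ l → h ≠ 1) →
      l.IsChain (fun a b => a.isLeft ≠ b.isLeft) →
      Tendsto (fun r => (S r).τ (l.map (block (fun i => phase (g r i)) (x r) (S r))).prod)
        atTop (𝓝 0) := by
  intro l hne h1 hc
  obtain ⟨L, hL1, hL2, hL3, hL4⟩ := Phase.expand S g x l h1 hc
  have hL0 : L ≠ [] := by
    rintro rfl
    obtain ⟨b, l', rfl⟩ := List.exists_cons_of_ne_nil hne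
    simp at hL3
  exact (Phase.fac_free hx hs hg hw L hL0 hL2 hL1).congr fun r => by rw [hL4]

end VP085
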