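import Vale.Agent.P085.Step.Unique
import Vale.Agent.P085.Transfer.Approx

/-!
P085, step: the tuple `(u₀, u₁, u₂, q)` of the model in `L(F₄)` is exactly free, so it gives the
limit moments of every asymptotically free family.
-/

open Filter Topology

namespace VP085.Step

open VP086 VP086.Model VP086.Calc

section General

variable {A : Type} [CStarAlgebra A] {H : Type} [NormedAddCommGroup H] [InnerProductSpace ℂ H]
  (S : System A H)

/-- The tuple of a system. -/
abbrev sysTup : Tup where
  A := A
  H := H
  S := S.toStd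
  u := ![S.u0, S.u1, S.u2]
  q := S.q

omit S in
lemma cpow_mem (q : A) (m : ℕ) (z : ℂ) :
    q ^ m - z • (1 : A) ∈ (Algebra.adjoin ℂ ({q} : Set A) : Set A) :=
  (Algebra.adjoin ℂ ({q} : Set A)).sub_mem (pow_mem (Algebra.subset_adjoin (Set.mem_singleton q)) m)
    ((Algebra.adjoin ℂ ({q} : Set A)).smul_mem (one_mem _) z)

lemma word_mem (h : FreeGroup (Fin 3)) :
    (wordHom ![S.u0, S.u1, S.u2] h : A) ∈ Algebra.adjoin ℂ
      ((S.D : Set A) ∪ Set.range fun h => (wordHom ![S.u1, S.u2] h : A)) := by
  induction h using FreeGroup.induction_on with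
  | C1 => rw [map_one]; exact one_mem _
  | of i =>
    fin_cases i
    · exact Algebra.subset_adjoin (Or.inl (by simpa [wordHom] using S.u0_mem))
    · exact Algebra.subset_adjoin (Or.inr ⟨.of 0, by simp [wordHom]⟩)
    · exact Algebra.subset_adjoin (Or.inr ⟨.of 1, by simp [wordHom]⟩)
  | inv_of i _ =>
    fin_cases i
    · exact Algebra.subset_adjoin (Or.inl (by
        simpa [wordHom, ← Unitary.star_eq_inv] using star_mem S.u0_mem))
    · exact Algebra.subset_adjoin (Or.inr ⟨(.of 0)⁻¹, by simp [wordHom]⟩)
    · exact Algebra.subset_adjoin (Or.inr ⟨(.of 1)⁻¹, by simp [wordHom]⟩)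
  | mul a b ha hb => rw [map_mul]; exact mul_mem ha hb

theorem sys_asympFree (c : ℕ → ℂ) (hq : ∀ m, S.τ (S.q ^ m) = c m) (hc0 : c 0 = 1)
    (hu : ∀ h, h ≠ 1 → S.τ (wordHom ![S.u0, S.u1, S.u2] h : A) = 0) :
    AsympFree c (⊤ : Filter Unit) fun _ => sysTup S := by
  intro l hne hc hch
  suffices h : (sysTup S).bmom c l = 0 by simp only [h]; exact tendsto_const_nhds
  have key := S.free_q (l.map fun x => (x.side, (sysTup S).bval c x)) (by simpa using hne) ?_ ?_
  · rw [List.map_map] at key
    exact key
  · intro p hp
    rw [List.mem_map] at hp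
    obtain ⟨x, hx, rfl⟩ := hp
    cases x with
    | pow m => exact (hc _ hx).elim
    | cpow m =>
      refine ⟨?_, ?_⟩
      swap
      · show S.q ^ m - c m • (1 : A) ∈ (Algebra.adjoin ℂ ({S.q} : Set A) : Set A)
        exact cpow_mem S.q m (c m)
      show S.τ (S.q ^ m - c m • (1 : A)) = 0
      have h0 := hq 0
      have hm := hq m
      rw [pow_zero] at h0
      rw [Std.τ] at h0 hm ⊢
      rw [map_sub, map_smul, inner_sub_right, inner_smul_right, hm, h0, hc0, mul_one, sub_self]
    | grp h => exact ⟨hu h (hc _ hx), word_mem S h⟩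
  · rw [List.isChain_map]
    exact hch

end General

/-- The moments of the semicircular law. -/
noncomputable def scC (m : ℕ) : ℂ := (scMoment m : ℂ)

/-- The tuple of the model. -/
noncomputable def modelTup : Tup := sysTup Model.system

theorem model_asympFree : AsympFree scC (⊤ : Filter Unit) fun _ => modelTup :=
  sys_asympFree Model.system scC (fun m => tau_semiElt_pow inj4 compl4 (hu 3) m) (by simp [scC, scMoment_zero])
    fun h hh => by
      show (std (FreeGroup (Fin 4))).τ (wordHom ![VP086.Model.gen 0, VP086.Model.gen 1, VP086.Model.gen 2] h :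
        LA (FreeGroup (Fin 4))) = 0
      rw [gen012, tau_word (by decide), if_neg hh]

/-- Asymptotically free families have the moments of the model in the limit. -/
theorem tendsto_model {κ : Type} {F : Filter κ} {T : κ → Tup} (hT : AsympFree scC F T)
    (l : List Blk) :
    Tendsto (fun r => (T r).bmom scC l) F (𝓝 (modelTup.bmom scC l)) :=
  tendsto_bmom scC model_asympFree hT l

/-- The block of a letter. -/
def genBlk : Gen → Blk
  | .p i => .grp (FreeGroup.of i)
  | .m i => .grp (FreeGroup.of i)⁻¹
  | .q => .pow 1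

lemma ev_eq_bmom (T : Tup) (W : List Gen) :
    T.S.τ (ev (val T.u T.q) W) = T.bmom scC (W.map genBlk) := by
  have h : ∀ g : Gen, val T.u T.q g = T.bval scC (genBlk g) := fun g => by
    cases g <;> simp [val, genBlk, Tup.bval, wordHom, ← Unitary.star_eq_inv]
  have e : W.map (val T.u T.q) = (W.map genBlk).map (T.bval scC) := by
    rw [List.map_map]; exact List.map_congr_left fun g _ => h g
  rw [ev, e]
  rfl

/-- Asymptotically free families have the moments of the model in the limit. -/
theorem tendsto_modelMoment {κ : Type} {F : Filter κ} {A : κ → Type} [∀ r, CStarAlgebra (A r)]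
    {H : κ → Type} [∀ r, NormedAddCommGroup (H r)] [∀ r, InnerProductSpace ℂ (H r)]
    (S : ∀ r, Std (A r) (H r)) (u : ∀ r, Fin 3 → unitary (A r)) (q : ∀ r, A r)
    (hfree : AsympFree scC F fun r =>
      { A := A r, H := H r, S := S r, u := u r, q := q r }) (W : List Gen) :
    Tendsto (fun r => (S r).τ (ev (val (u r) (q r)) W)) F (𝓝 (modelMoment W)) := by
  have h := tendsto_model hfree (W.map genBlk)
  have e0 : modelTup.bmom scC (W.map genBlk) = modelMoment W := (ev_eq_bmom modelTup W).symm
  rw [e0] at h
  refine h.congr fun r => ?_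
  exact (ev_eq_bmom { A := A r, H := H r, S := S r, u := u r, q := q r } W).symm

end VP085.Step
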