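import Vale.Agent.P085.Step.Basic
import Vale.Agent.P085.Step.Phase
import Vale.Agent.P085.Step.Merge
import Vale.Agent.P085.Step.UniqueModel
import Vale.Agent.P085.Transfer.Step

/-!
P085 step: the phases of the carriers, the second multiplied by `v`, have together with `q`
asymptotically the moments of the generators of the model.
-/

open scoped InnerProductSpace
open Filter Topology

namespace VP085.Step

open VP086

lemma dropWhile_map_snd {ι B B' : Type} (f : B → B') (l : List (ι ⊕ B)) :
    (l.map (Sum.map id f)).dropWhile (fun z => z.isRight) =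
        (l.dropWhile fun z => z.isRight).map (Sum.map id f) ∧
      (l.map (Sum.map id f)).takeWhile (fun z => z.isRight) =
        (l.takeWhile fun z => z.isRight).map (Sum.map id f) := by
  induction l with
  | nil => simp
  | cons a l ih => cases a <;> simp [List.dropWhile_cons, List.takeWhile_cons, ih.1, ih.2]

lemma filterMap_map_snd {ι B B' : Type} (f : B → B') (l : List (ι ⊕ B)) :
    (l.map (Sum.map id f)).filterMap Sum.getRight? = (l.filterMap Sum.getRight?).map f := by
  induction l with
  | nil => simp
  | cons a l ih => cases a <;> simp [ih, List.filterMap_cons, Sum.getRight?]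

/-- Wick moments see the letters only through their moments. -/
lemma wick_map {ι B B' : Type} [DecidableEq ι] (φ : List B' → ℂ) (f : B → B') :
    ∀ (fuel : ℕ) (l : List (ι ⊕ B)),
      wick φ fuel (l.map (Sum.map id f)) = wick (fun m => φ (m.map f)) fuel l
  | 0, l => by simp only [wick, filterMap_map_snd]
  | fuel + 1, l => by
    obtain ⟨hd, ht⟩ := dropWhile_map_snd f l
    simp only [wick, hd, ht, filterMap_map_snd]
    rcases List.dropWhile (fun z : ι ⊕ B => z.isRight) l with _ | ⟨a, rest⟩
    · simp only [List.map_nil]
    · cases a with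
      | inr b => simp only [List.map_cons, Sum.map_inr]
      | inl i =>
        simp only [List.map_cons, Sum.map_inl, id_eq, List.length_map]
        refine Finset.sum_congr rfl fun k _ => ?_
        have hk : ((rest.map (Sum.map id f))[k]? >>= Sum.getLeft?) = (rest[k]? >>= Sum.getLeft?) := by
          rw [List.getElem?_map]
          cases rest[k]? with
          | none => rfl
          | some z => cases z <;> rfl
        rw [hk, ← List.map_take, ← List.map_drop, ← List.map_append, wick_map φ f fuel,
          wick_map φ f fuel]

namespace Datum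

variable (X : Datum)

/-- The phases of the carriers in the product algebra. -/
noncomputable def car : Fin 3 → unitary X.Alg := fun i => phase (X.carg i)

/-- The tuple of the step. -/
noncomputable def tup : Tup where
  A := X.Alg
  H := PiLp 2 fun _ : X.κ => X.H
  S := X.std
  u := mvd X.car X.cv
  q := X.cq

lemma isSelfAdjoint_carg (i : Fin 3) : IsSelfAdjoint (X.carg i) :=
  funext fun w => (X.g_sa w i).star_eq

lemma τ_const (a : X.A) : X.std.τ (fun _ => a) = X.S.τ a := by
  rw [Datum.std, piStd_τ, Finset.sum_const, Finset.card_univ, nsmul_eq_mul, ← mul_assoc,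
    inv_mul_cancel₀ (Nat.cast_ne_zero.2 Fintype.card_ne_zero), one_mul]

/-- The letters in the original algebra. -/
def lett : Fin 3 → X.A := ![(X.v : X.A), star (X.v : X.A), X.q]

lemma xv_eq (b : Fin 3) : xv X.cv X.cq b = fun _ => X.lett b := by
  fin_cases b <;> rfl

lemma mon_eq (m : List (Fin 3)) : (m.map (xv X.cv X.cq)).prod = fun _ => (m.map X.lett).prod := by
  induction m with
  | nil => rfl
  | cons b m ih => rw [List.map_cons, List.prod_cons, ih, xv_eq]; rfl

lemma norm_xv_le (b : Fin 3) : ‖xv X.cv X.cq b‖ ≤ 2 := by
  fin_cases b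
  · exact (Lim.norm_unit_le X.std X.cv.2).trans one_le_two
  · show ‖star (X.cv : X.Alg)‖ ≤ 2
    rw [norm_star]
    exact (Lim.norm_unit_le X.std X.cv.2).trans one_le_two
  · exact (pi_norm_le_iff_of_nonneg zero_le_two).2 fun _ => X.semi.2.1

lemma τ_pow (m : ℕ) : X.std.τ (X.cq ^ m) = scC m := by
  rw [show X.cq ^ m = fun _ => X.q ^ m from rfl, τ_const]
  induction m using Nat.strong_induction_on with
  | _ m ih =>
    cases m with
    | zero =>
      simp [scC, Model.scMoment_zero, Std.τ, inner_self_eq_norm_sq_to_K, X.S.norm_one]
    | succ m =>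
      rw [X.semi.2.2 m, scC, Model.scMoment_rec m, Complex.ofReal_sum]
      refine Finset.sum_congr rfl fun i hi => ?_
      rw [Finset.mem_range] at hi
      rw [ih i (by omega), ih (m - 1 - i) (by omega), scC, scC, Complex.ofReal_mul]

/-- The averaged Wick condition for words in the product algebra. -/
lemma norm_wick_le {n : ℕ} {η : ℝ} (h : X.Near n η) (l : List (Fin 3 ⊕ Fin 3)) (hl : l.length ≤ n) :
    ‖X.std.τ (l.map (Sum.elim X.carg (xv X.cv X.cq))).prod -
      wick (fun m => X.std.τ (m.map (xv X.cv X.cq)).prod) l.length l‖ ≤ η := by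
  have hx : ∀ x, Sum.inr x ∈ l.map (Sum.map id X.lett) →
      x ∈ ({(X.v : X.A), star (X.v : X.A), X.q} : Set X.A) := by
    intro x hx
    obtain ⟨z, -, hz⟩ := List.mem_map.1 hx
    cases z with
    | inl i => simp at hz
    | inr b =>
      simp only [Sum.map_inr, Sum.inr.injEq] at hz
      subst hz
      fin_cases b <;> simp [lett]
  have h1 := h (l.map (Sum.map id X.lett)) (by simpa using hl) hx
  rw [List.length_map, wick_map] at h1
  refine le_of_eq_of_le ?_ h1
  congr 1
  congr 1
  · rw [Datum.std, piStd_τ]
    congr 1
    refine Finset.sum_congr rfl fun w _ => congrArg X.S.τ ?_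
    rw [List.map_map, show ((l.map (Sum.elim X.carg (xv X.cv X.cq))).prod) w =
      (Pi.evalRingHom (fun _ => X.A) w) (l.map (Sum.elim X.carg (xv X.cv X.cq))).prod from rfl,
      map_list_prod, List.map_map]
    congr 1
    refine List.map_congr_left fun z _ => ?_
    cases z with
    | inl i => rfl
    | inr b => simp [xv_eq]
  · refine congrArg (fun φ => wick φ l.length l) (funext fun m => ?_)
    rw [mon_eq, τ_const]

end Datum

variable {X : ℕ → Datum}

lemma tup_asympFree (h : ∀ n, (X n).Near n (1 / (n + 1))) :
    AsympFree scC atTop fun n => (X n).tup := by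
  have hw : ∀ l : List (Fin 3 ⊕ Fin 3), Tendsto (fun n =>
      (X n).std.τ (l.map (Sum.elim (X n).carg (xv (X n).cv (X n).cq))).prod -
      wick (fun m => (X n).std.τ (m.map (xv (X n).cv (X n).cq)).prod) l.length l) atTop (𝓝 0) := by
    intro l
    refine squeeze_zero_norm' ?_ tendsto_one_div_add_atTop_nhds_zero_nat
    filter_upwards [eventually_ge_atTop l.length] with n hn
    exact (X n).norm_wick_le (h n) l hn
  have hfree : CarFree (fun n => (X n).std) (fun n => (X n).car) (fun n => (X n).cv)
      (fun n => (X n).cq) :=
    phase_free (fun n => (X n).std) (fun n => (X n).carg) (fun n => xv (X n).cv (X n).cq)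
      (fun _ => 2) (fun n => (X n).isSelfAdjoint_carg) (fun n => (X n).norm_xv_le) ![1, 0, 2]
      (fun n b => by
        fin_cases b
        · rfl
        · exact star_star _
        · exact funext fun _ => (X n).semi.1.star_eq)
      hw
  intro l hne hc hch
  let f : Blk → ℕ ⊕ FreeGroup (Fin 3) := fun x =>
    match x with
    | .pow m => Sum.inl m
    | .cpow m => Sum.inl m
    | .grp h => Sum.inr h
  have hq : ∀ n, ‖(X n).cq‖ ≤ 2 := fun n =>
    (pi_norm_le_iff_of_nonneg zero_le_two).2 fun _ => (X n).semi.2.1
  refine (merge_free hfree hq (fun n m => (X n).τ_pow m) (l.map f) (by simpa using hne) ?_ ?_).congr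
    fun n => ?_
  · intro g hg
    obtain ⟨x, hx, e⟩ := List.mem_map.1 hg
    cases x <;> simp [f] at e
    subst e
    exact hc _ hx
  · rw [List.isChain_map]
    refine hch.imp fun a b hab => ?_
    cases a <;> cases b <;> simp_all [f, Blk.side]
  · simp only [Tup.bmom, List.map_map]
    congr 2
    refine List.map_congr_left fun x hx => ?_
    cases x with
    | pow m => exact (hc _ hx).elim
    | cpow m => rfl
    | grp g => rfl

/-- The moments of the step tuple tend to those of the model. -/
theorem tendsto_tup (h : ∀ n, (X n).Near n (1 / (n + 1))) (W : List Gen) :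
    Tendsto (fun n => (X n).std.τ (ev (val (mvd (X n).car (X n).cv) (X n).cq) W)) atTop
      (𝓝 (modelMoment W)) := by
  exact tendsto_modelMoment (fun n => (X n).std) (fun n => mvd (X n).car (X n).cv)
    (fun n => (X n).cq) (tup_asympFree h) W

end VP085.Step
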