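import Vale.Agent.P085.Step.PhaseFun
import Vale.Agent.P086.Model.Calculus

/-!
P085, step: the phase of a self-adjoint element, and its distance in the two-norm to polynomials.
-/

open scoped InnerProductSpace
open Polynomial

namespace VP085

open VP086

variable {A : Type} [CStarAlgebra A] {H : Type} [NormedAddCommGroup H] [InnerProductSpace ℂ H]

namespace Phase

/-- The powers of the phase as elements. -/
noncomputable def elem (n : ℤ) (g : A) : A := cfc (fun z : ℂ => powFun n z.re) g

lemma continuous_fun (n : ℤ) : Continuous fun z : ℂ => powFun n z.re :=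
  (continuous_powFun n).comp Complex.continuous_re

lemma elem_add {g : A} (hg : IsSelfAdjoint g) (a b : ℤ) :
    elem (a + b) g = elem a g * elem b g := by
  have := hg.isStarNormal
  rw [elem, elem, elem, ← cfc_mul _ _ g (continuous_fun a).continuousOn
    (continuous_fun b).continuousOn]
  exact congrArg (fun f => cfc f g) (funext fun z => powFun_add a b z.re)

lemma elem_zero {g : A} (hg : IsSelfAdjoint g) : elem 0 g = 1 := by
  have := hg.isStarNormal
  simp only [elem, powFun_zero]
  exact cfc_const_one ℂ g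

lemma star_elem (n : ℤ) (g : A) : star (elem n g) = elem (-n) g := by
  rw [elem, elem, ← cfc_star]
  exact congrArg (fun f => cfc f g) (funext fun z => conj_powFun n z.re)

lemma elem_mem_unitary {g : A} (hg : IsSelfAdjoint g) (n : ℤ) : elem n g ∈ unitary A := by
  rw [Unitary.mem_iff, star_elem, ← elem_add hg, ← elem_add hg, neg_add_cancel, add_neg_cancel,
    elem_zero hg]
  exact ⟨rfl, rfl⟩

/-- The powers of the phase as a homomorphism. -/
noncomputable def hom {g : A} (hg : IsSelfAdjoint g) : Multiplicative ℤ →* unitary A where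
  toFun n := ⟨elem n.toAdd g, elem_mem_unitary hg _⟩
  map_one' := Subtype.ext (elem_zero hg)
  map_mul' a b := Subtype.ext (elem_add hg a.toAdd b.toAdd)

end Phase

open Classical in
/-- The unitary `exp (2πi F(g))`, `F` the distribution function of the semicircle law. -/
noncomputable def phase (g : A) : unitary A :=
  if h : IsSelfAdjoint g then ⟨Phase.elem 1 g, Phase.elem_mem_unitary h 1⟩ else 1

lemma phase_zpow {g : A} (hg : IsSelfAdjoint g) (n : ℤ) :
    ((phase g ^ n : unitary A) : A) = Phase.elem n g := by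
  have h : phase g = Phase.hom hg (Multiplicative.ofAdd 1) := by
    rw [phase, dif_pos hg]; rfl
  rw [h, ← map_zpow, ← ofAdd_zsmul, zsmul_one]
  rfl

lemma phase_coe {g : A} (hg : IsSelfAdjoint g) : (phase g : A) = Phase.elem 1 g := by
  rw [← phase_zpow hg, zpow_one]

/-- The phase lies in the norm closure of the algebra of the element. -/
lemma phase_mem {g : A} (hg : IsSelfAdjoint g) :
    (phase g : A) ∈ (StarAlgebra.adjoin ℂ ({g} : Set A)).topologicalClosure := by
  rw [phase_coe hg]
  exact cfc_mem_elemental _ g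

/-- Star homomorphisms commute with the phase. -/
lemma phase_map {A' : Type} [CStarAlgebra A'] (f : A →⋆ₐ[ℂ] A') {g : A} (hg : IsSelfAdjoint g) :
    (phase (f g) : A') = f (phase g) := by
  have := hg.isStarNormal
  rw [phase_coe hg, phase_coe (hg.map f), Phase.elem, Phase.elem]
  exact (StarAlgHom.map_cfc f _ g (Phase.continuous_fun 1).continuousOn (AddMonoidHomClass.continuous_of_bound f 1 fun x => by
      simpa using NonUnitalStarAlgHom.norm_apply_le f x)
    hg.isStarNormal (hg.map f).isStarNormal).symm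

namespace Phase

/-- The two-norm distance to a polynomial is controlled by the moment of a dominating weight. -/
lemma norm_sub_aeval_le (S : Std A H) {g : A} (hg : IsSelfAdjoint g) (n : ℤ) (P : ℂ[X])
    {α β : ℝ} (M : ℕ) (hα : 0 < α) (hβ : 0 ≤ β)
    (hP : ∀ x : ℝ, ‖powFun n x - P.eval (x : ℂ)‖ ^ 2 ≤ α + β * x ^ (2 * M)) :
    ‖S.ι (elem n g - aeval g P)‖ ^ 2 ≤ α + β * (S.τ (g ^ (2 * M))).re := by
  have := hg.isStarNormal
  set e : ℝ → ℂ := fun x => powFun n x - P.eval (x : ℂ) with he
  set s : ℝ → ℝ := fun x => Real.sqrt (α + β * x ^ (2 * M)) with hs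
  have hw : ∀ x : ℝ, 0 < α + β * x ^ (2 * M) := fun x => by
    have : 0 ≤ x ^ (2 * M) := by rw [pow_mul]; positivity
    positivity
  have hs0 : ∀ x, 0 < s x := fun x => Real.sqrt_pos.2 (hw x)
  have hec : Continuous e := (continuous_powFun n).sub (P.continuous.comp Complex.continuous_ofReal)
  have hsc : Continuous s := Real.continuous_sqrt.comp (by fun_prop)
  have hkc : Continuous fun z : ℂ => e z.re / (s z.re : ℂ) :=
    (hec.comp Complex.continuous_re).div (Complex.continuous_ofReal.comp
      (hsc.comp Complex.continuous_re)) fun z => by exact_mod_cast (hs0 z.re).ne'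
  have hsC : Continuous fun z : ℂ => ((s z.re : ℝ) : ℂ) :=
    Complex.continuous_ofReal.comp (hsc.comp Complex.continuous_re)
  have hk : ‖cfc (fun z : ℂ => e z.re / (s z.re : ℂ)) g‖ ≤ 1 := by
    refine norm_cfc_le zero_le_one fun z _ => ?_
    rw [norm_div, Complex.norm_real, Real.norm_of_nonneg (hs0 _).le, div_le_one (hs0 _)]
    exact Real.le_sqrt_of_sq_le (hP z.re)
  have hdiff : elem n g - aeval g P =
      cfc (fun z : ℂ => e z.re / (s z.re : ℂ)) g * cfc (fun z : ℂ => ((s z.re : ℝ) : ℂ)) g := by
    rw [← cfc_mul _ _ g hkc.continuousOn hsC.continuousOn, ← cfc_polynomial P g, elem,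
      ← cfc_sub _ _ g (continuous_fun n).continuousOn P.continuous.continuousOn]
    refine cfc_congr fun z hz => ?_
    rw [div_mul_cancel₀ _ (by exact_mod_cast (hs0 z.re).ne'), he]
    simp only [← hg.mem_spectrum_eq_re hz]
  have hsq : star (cfc (fun z : ℂ => ((s z.re : ℝ) : ℂ)) g) *
      cfc (fun z : ℂ => ((s z.re : ℝ) : ℂ)) g = (α : ℂ) • (1 : A) + (β : ℂ) • g ^ (2 * M) := by
    have e2 : aeval g (C (α : ℂ) + C (β : ℂ) * X ^ (2 * M)) =
        (α : ℂ) • (1 : A) + (β : ℂ) • g ^ (2 * M) := by
      simp [Algebra.smul_def]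
    rw [← cfc_star, ← cfc_mul _ _ g hsC.star.continuousOn hsC.continuousOn, ← e2,
      ← cfc_polynomial _ g]
    refine cfc_congr fun z hz => ?_
    rw [Complex.star_def, Complex.conj_ofReal, ← Complex.ofReal_mul, hs,
      Real.mul_self_sqrt (hw z.re).le]
    simp [← hg.mem_spectrum_eq_re hz]
  have hnorm : ‖S.ι (cfc (fun z : ℂ => ((s z.re : ℝ) : ℂ)) g)‖ ^ 2 =
      α + β * (S.τ (g ^ (2 * M))).re := by
    have h := Calc.tau_eq_inner S (cfc (fun z : ℂ => ((s z.re : ℝ) : ℂ)) g)
      (cfc (fun z : ℂ => ((s z.re : ℝ) : ℂ)) g)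
    rw [hsq, inner_self_eq_norm_sq_to_K] at h
    have h1 : S.τ (1 : A) = 1 := by
      rw [Std.τ, inner_self_eq_norm_sq_to_K, S.norm_one]; simp
    have h2 : S.τ ((α : ℂ) • (1 : A) + (β : ℂ) • g ^ (2 * M)) =
        (α : ℂ) + (β : ℂ) * S.τ (g ^ (2 * M)) := by
      rw [Std.τ, map_add, map_smul, map_smul, inner_add_right, inner_smul_right, inner_smul_right,
        ← Std.τ, h1, mul_one]
      rfl
    rw [h2] at h
    have h3 := congrArg Complex.re h
    simp only [Complex.add_re, Complex.re_ofReal_mul, Complex.ofReal_re] at h3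
    simpa [pow_two] using h3.symm
  rw [← hnorm, hdiff]
  refine pow_le_pow_left₀ (norm_nonneg _) ((S.left_le _ _).trans ?_) 2
  exact mul_le_of_le_one_left (norm_nonneg _) hk

end Phase

end VP085
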