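import Vale.Agent.P085.Step.PhaseWick
import Vale.Agent.P086.Model.Semicircle

/-!
P085, step: the distribution function of the semicircle law as a phase, with its polynomial
approximations, in the form that needs only moments.
-/

open Real Polynomial intervalIntegral MeasureTheory
open scoped ComplexConjugate

namespace VP085.Phase

open VP086.Calc (dist') 
open VP086.Model (scMoment)
open VP085.Wick (mom)

/-- The `n`-th power of the phase. -/
noncomputable def powFun (n : ℤ) (x : ℝ) : ℂ :=
  Complex.exp ((n * (2 * π * dist' (arccos (x / 2))) : ℝ) * Complex.I)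

lemma continuous_powFun (n : ℤ) : Continuous (powFun n) := by
  unfold powFun
  have : Continuous fun x : ℝ => dist' (arccos (x / 2)) :=
    VP086.Calc.continuous_dist'.comp (Real.continuous_arccos.comp (continuous_id.div_const 2))
  fun_prop

lemma powFun_add (a b : ℤ) (x : ℝ) : powFun (a + b) x = powFun a x * powFun b x := by
  rw [powFun, powFun, powFun, ← Complex.exp_add]
  push_cast
  ring_nf

lemma powFun_zero (x : ℝ) : powFun 0 x = 1 := by simp [powFun]

lemma norm_powFun (n : ℤ) (x : ℝ) : ‖powFun n x‖ = 1 := Complex.norm_exp_ofReal_mul_I _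

lemma conj_powFun (n : ℤ) (x : ℝ) : star (powFun n x) = powFun (-n) x := by
  rw [powFun, powFun, ← starRingEnd_apply, ← Complex.exp_conj, map_mul, Complex.conj_ofReal,
    Complex.conj_I]
  push_cast
  ring_nf

/-- The integral against the semicircle law. -/
noncomputable def scInt (f : ℝ → ℂ) : ℂ :=
  (2 / π : ℝ) * ∫ p in (0 : ℝ)..π, f (2 * cos p) * ((sin p) ^ 2 : ℝ)

lemma scInt_powFun {n : ℤ} (hn : n ≠ 0) : scInt (powFun n) = 0 := by
  have hc : (2 * π * n * Complex.I : ℂ) ≠ 0 := by
    simp [pi_ne_zero, hn]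
  have key : ∫ p in (0 : ℝ)..π, (2 / π : ℝ) * (powFun n (2 * cos p) * ((sin p) ^ 2 : ℝ)) = 0 := by
    have e : ∀ p ∈ Set.uIcc (0 : ℝ) π,
        HasDerivAt (fun p => Complex.exp (2 * π * n * Complex.I * (dist' p : ℂ)) /
          (2 * π * n * Complex.I))
          ((2 / π : ℝ) * (powFun n (2 * cos p) * ((sin p) ^ 2 : ℝ))) p := by
      intro p hp
      rw [Set.uIcc_of_le pi_pos.le] at hp
      have h := ((((VP086.Calc.hasDerivAt_dist' p).ofReal_comp).const_mul
        (2 * π * n * Complex.I : ℂ)).cexp.div_const (2 * π * n * Complex.I : ℂ))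
      refine h.congr_deriv ?_
      rw [powFun, mul_div_cancel_left₀ _ two_ne_zero, arccos_cos hp.1 hp.2,
        show ((n * (2 * π * dist' p) : ℝ) : ℂ) * Complex.I
          = 2 * π * n * Complex.I * (dist' p : ℂ) by push_cast; ring]
      field_simp
      push_cast
      field_simp
    rw [integral_eq_sub_of_hasDerivAt e (Continuous.intervalIntegrable
      (continuous_const.mul (((continuous_powFun n).comp (by fun_prop)).mul (by fun_prop))) _ _)]
    rw [VP086.Calc.dist'_pi, VP086.Calc.dist'_zero, Complex.ofReal_one, Complex.ofReal_zero,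
      mul_one, mul_zero, show (2 * π * n * Complex.I : ℂ) = n * (2 * π * Complex.I) by ring,
      Complex.exp_int_mul_two_pi_mul_I, Complex.exp_zero, sub_self]
  rw [intervalIntegral.integral_const_mul] at key
  exact key

lemma scInt_eval (P : ℂ[X]) :
    scInt (fun x => P.eval (x : ℂ)) = P.sum fun n c => c * mom n := by
  have hi : ∀ n : ℕ, IntervalIntegrable (fun p => P.coeff n *
      ((((2 * cos p) ^ n * (sin p) ^ 2 : ℝ)) : ℂ)) volume 0 π :=
    fun n => Continuous.intervalIntegrable (by fun_prop) _ _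
  rw [scInt, Polynomial.sum_def]
  simp only [Polynomial.eval_eq_sum, Polynomial.sum_def, Finset.sum_mul]
  rw [intervalIntegral.integral_congr (g := fun p => ∑ n ∈ P.support, P.coeff n *
    ((((2 * cos p) ^ n * (sin p) ^ 2 : ℝ)) : ℂ)) (fun p _ => Finset.sum_congr rfl fun n _ => by
      push_cast; ring), intervalIntegral.integral_finsetSum fun n _ => hi n, Finset.mul_sum]
  refine Finset.sum_congr rfl fun n _ => ?_
  rw [intervalIntegral.integral_const_mul, intervalIntegral.integral_ofReal, mom, scMoment]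
  push_cast
  ring

lemma norm_scInt_le {f : ℝ → ℂ} {K : ℝ} (h : ∀ x ∈ Set.Icc (-3 : ℝ) 3, ‖f x‖ ≤ K) :
    ‖scInt f‖ ≤ 2 * K := by
  have hK : ∀ p ∈ Set.uIoc (0 : ℝ) π, ‖f (2 * cos p) * ((sin p) ^ 2 : ℝ)‖ ≤ K := by
    intro p _
    have h1 := h (2 * cos p) ⟨by linarith [neg_one_le_cos p], by linarith [cos_le_one p]⟩
    rw [norm_mul, Complex.norm_real, norm_of_nonneg (sq_nonneg _)]
    exact (mul_le_of_le_one_right (norm_nonneg _) (sin_sq_le_one p)).trans h1
  rw [scInt, norm_mul, Complex.norm_real, norm_of_nonneg (by positivity)]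
  refine (mul_le_mul_of_nonneg_left (norm_integral_le_of_norm_le_const hK) (by positivity)).trans
    (le_of_eq ?_)
  rw [sub_zero, abs_of_pos pi_pos]
  field_simp

lemma scMoment_le (m : ℕ) : scMoment (2 * m) ≤ 2 * 4 ^ m := by
  have hK : ∀ p ∈ Set.uIoc (0 : ℝ) π, ‖(2 * cos p) ^ (2 * m) * (sin p) ^ 2‖ ≤ (4 : ℝ) ^ m := by
    intro p _
    rw [norm_mul, norm_of_nonneg (sq_nonneg _), pow_mul, norm_of_nonneg (by positivity)]
    refine (mul_le_of_le_one_right (by positivity) (sin_sq_le_one p)).trans ?_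
    refine pow_le_pow_left₀ (by positivity) ?_ m
    nlinarith [cos_sq_le_one p]
  have h := (le_abs_self _).trans (norm_integral_le_of_norm_le_const hK)
  rw [sub_zero, abs_of_pos pi_pos] at h
  rw [scMoment]
  refine (mul_le_mul_of_nonneg_left h (by positivity)).trans (le_of_eq ?_)
  field_simp

/-- A polynomial of semicircular mean zero close to a power of the phase, with a weight of small
mean that dominates the squared distance everywhere. -/
lemma exists_approx {n : ℤ} (hn : n ≠ 0) {δ : ℝ} (hδ : 0 < δ) :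
    ∃ (P : ℂ[X]) (α β : ℝ) (M : ℕ), (P.sum fun j c => c * mom j) = 0 ∧ 0 < α ∧ 0 ≤ β ∧
      (∀ x : ℝ, ‖powFun n x - P.eval (x : ℂ)‖ ^ 2 ≤ α + β * x ^ (2 * M)) ∧
      α + β * scMoment (2 * M) < δ := by
  obtain ⟨d, hd, hd1⟩ : ∃ d : ℝ, 0 < d ∧ 144 * d ^ 2 ≤ δ / 4 := by
    refine ⟨Real.sqrt (δ / 576), by positivity, ?_⟩
    rw [Real.sq_sqrt (by positivity)]
    linarith
  have hre : ContinuousOn (fun x => (powFun n x).re) (Set.Icc (-3) 3) :=
    (Complex.continuous_re.comp (continuous_powFun n)).continuousOn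
  have him : ContinuousOn (fun x => (powFun n x).im) (Set.Icc (-3) 3) :=
    (Complex.continuous_im.comp (continuous_powFun n)).continuousOn
  obtain ⟨P₁, h₁⟩ := exists_polynomial_near_of_continuousOn _ _ _ hre d hd
  obtain ⟨P₂, h₂⟩ := exists_polynomial_near_of_continuousOn _ _ _ him d hd
  set Q : ℂ[X] := P₁.map Complex.ofRealHom + C Complex.I * P₂.map Complex.ofRealHom with hQ
  have hQe : ∀ x : ℝ, Q.eval (x : ℂ) = ((P₁.eval x : ℝ) : ℂ) + Complex.I * ((P₂.eval x : ℝ) : ℂ) := fun x => by
    simp [hQ, ← Complex.ofRealHom_eq_coe, Polynomial.eval_map, Polynomial.eval₂_at_apply]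
  have hQn : ∀ x ∈ Set.Icc (-3 : ℝ) 3, ‖powFun n x - Q.eval (x : ℂ)‖ ≤ 2 * d := fun x hx => by
    refine (Complex.norm_le_abs_re_add_abs_im _).trans ?_
    have r1 : (powFun n x - Q.eval (x : ℂ)).re = -(P₁.eval x - (powFun n x).re) := by simp [hQe]
    have r2 : (powFun n x - Q.eval (x : ℂ)).im = -(P₂.eval x - (powFun n x).im) := by simp [hQe]
    rw [r1, r2, abs_neg, abs_neg]
    linarith [h₁ x hx, h₂ x hx]
  set c : ℂ := Q.sum fun j a => a * mom j with hc
  have hcn : ‖c‖ ≤ 4 * d := by
    have h : scInt (fun x => Q.eval (x : ℂ) - powFun n x) = c := by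
      rw [hc, ← scInt_eval, scInt, scInt]
      simp only [sub_mul]
      rw [intervalIntegral.integral_sub]
      · have h0 := scInt_powFun hn
        rw [scInt] at h0
        rw [mul_sub, h0, sub_zero]
      · exact Continuous.intervalIntegrable (by fun_prop) _ _
      · exact Continuous.intervalIntegrable
          (((continuous_powFun n).comp (by fun_prop)).mul (by fun_prop)) _ _
    rw [← h]
    refine (norm_scInt_le fun x hx => ?_).trans (le_of_eq (by ring : 2 * (2 * d) = 4 * d))
    rw [norm_sub_rev]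
    exact hQn x hx
  set P : ℂ[X] := Q - C c with hP
  have hP0 : (P.sum fun j a => a * mom j) = 0 := by
    have hl : ∀ R : ℂ[X], (R.sum fun j a => a * mom j) =
        scInt (fun x => R.eval (x : ℂ)) := fun R => (scInt_eval R).symm
    rw [hl, hP]
    have hone : scInt (fun x => (C (1 : ℂ)).eval (x : ℂ)) = 1 := by
      rw [scInt_eval, Polynomial.sum_C_index (by simp)]
      simp [Wick.mom_zero]
    simp only [eval_C] at hone
    rw [scInt] at hone ⊢
    simp only [eval_sub, eval_C, sub_mul]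
    rw [intervalIntegral.integral_sub (Continuous.intervalIntegrable (by fun_prop) _ _)
      (Continuous.intervalIntegrable (by fun_prop) _ _), mul_sub, sub_eq_zero,
      intervalIntegral.integral_const_mul]
    rw [show (Q.sum fun j a => a * mom j) = scInt (fun x => Q.eval (x : ℂ)) from hl Q] at hc
    simp only [one_mul] at hone
    rw [← mul_left_comm, hone, mul_one, hc, scInt]
  have hPn : ∀ x ∈ Set.Icc (-3 : ℝ) 3, ‖powFun n x - P.eval (x : ℂ)‖ ≤ 6 * d := fun x hx => by
    have e : powFun n x - P.eval (x : ℂ) = (powFun n x - Q.eval (x : ℂ)) + c := by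
      simp [hP]; ring
    rw [e]
    exact (norm_add_le _ _).trans (by linarith [hQn x hx])
  set K : ℝ := 1 + ∑ j ∈ P.support, ‖P.coeff j‖ * 3 ^ j with hK
  have hK0 : 0 ≤ K := by positivity
  obtain ⟨m, hm⟩ := exists_pow_lt_of_lt_one (show (0 : ℝ) < δ / (4 * (K ^ 2 + 1)) by positivity)
    (show (4 / 9 : ℝ) < 1 by norm_num)
  set M : ℕ := max m P.natDegree with hM
  refine ⟨P, 36 * d ^ 2, K ^ 2 / 9 ^ M, M, hP0, by positivity, by positivity, fun x => ?_, ?_⟩
  · by_cases hx : x ∈ Set.Icc (-3 : ℝ) 3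
    · have h : 0 ≤ K ^ 2 / 9 ^ M * x ^ (2 * M) := by
        rw [pow_mul x]; positivity
      have h6 := pow_le_pow_left₀ (norm_nonneg _) (hPn x hx) 2
      linarith [show (6 * d) ^ 2 = 36 * d ^ 2 by ring]
    · have h3 : 1 ≤ |x| / 3 := by
        rw [Set.mem_Icc, ← abs_le, not_le] at hx
        linarith
      have hb : ‖powFun n x - P.eval (x : ℂ)‖ ≤ K * (|x| / 3) ^ M := by
        refine (norm_sub_le _ _).trans ?_
        rw [norm_powFun, hK, add_mul, one_mul, Finset.sum_mul, Polynomial.eval_eq_sum,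
          Polynomial.sum_def]
        refine add_le_add (one_le_pow₀ h3) ((norm_sum_le _ _).trans (Finset.sum_le_sum fun j hj => ?_))
        rw [norm_mul, norm_pow, Complex.norm_real, Real.norm_eq_abs, mul_assoc]
        refine mul_le_mul_of_nonneg_left ?_ (norm_nonneg _)
        calc |x| ^ j = 3 ^ j * (|x| / 3) ^ j := by rw [← mul_pow]; ring_nf
          _ ≤ 3 ^ j * (|x| / 3) ^ M := mul_le_mul_of_nonneg_left (pow_le_pow_right₀ h3
            ((Polynomial.le_natDegree_of_mem_supp j hj).trans (le_max_right _ _))) (by positivity)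
      refine (pow_le_pow_left₀ (norm_nonneg _) hb 2).trans
        (le_trans (le_of_eq ?_) (le_add_of_nonneg_left (by positivity)))
      rw [mul_pow, div_pow, div_pow, ← pow_mul, ← pow_mul, mul_comm M 2, pow_mul |x|, sq_abs,
        ← pow_mul, pow_mul (3 : ℝ)]
      norm_num
      ring
  · have h1 := mul_le_mul_of_nonneg_left (scMoment_le M)
      (show (0 : ℝ) ≤ K ^ 2 / 9 ^ M by positivity)
    have h2 : K ^ 2 / 9 ^ M * (2 * 4 ^ M) = 2 * K ^ 2 * (4 / 9 : ℝ) ^ M := by
      rw [div_pow]; ring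
    have h3 : (4 / 9 : ℝ) ^ M ≤ δ / (4 * (K ^ 2 + 1)) :=
      (pow_le_pow_of_le_one (by norm_num) (by norm_num) (le_max_left _ _)).trans hm.le
    have h4 : 2 * K ^ 2 * (δ / (4 * (K ^ 2 + 1))) ≤ δ / 2 := by
      rw [mul_div_assoc', div_le_div_iff₀ (by positivity) two_pos]
      nlinarith [sq_nonneg K]
    have h5 := mul_le_mul_of_nonneg_left h3 (show (0 : ℝ) ≤ 2 * K ^ 2 by positivity)
    linarith

end VP085.Phase
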