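import Vale.Agent.P085.Defs
import Vale.Agent.P086.Model.Moments

/-!
P085, step: the Wick functional makes the semicircular letters free, from each other and from
the coefficient algebra.
-/

namespace VP085.Wick

open VP086.Model (scMoment)

variable {ι B : Type} [DecidableEq ι] (φ : List B → ℂ)

/-! ### The functional on words -/

omit [DecidableEq ι] in
lemma dropWhile_pre (p : List B) (i : ι) (rest : List (ι ⊕ B)) :
    (p.map Sum.inr ++ Sum.inl i :: rest).dropWhile (fun z => z.isRight) = Sum.inl i :: rest := by
  induction p with
  | nil => simp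
  | cons b p ih => rw [List.map_cons, List.cons_append, List.dropWhile_cons_of_pos rfl, ih]

omit [DecidableEq ι] in
lemma takeWhile_pre (p : List B) (i : ι) (rest : List (ι ⊕ B)) :
    (p.map Sum.inr ++ Sum.inl i :: rest).takeWhile (fun z => z.isRight) = p.map Sum.inr := by
  induction p with
  | nil => simp
  | cons b p ih =>
    rw [List.map_cons, List.cons_append, List.takeWhile_cons_of_pos rfl, ih]

omit [DecidableEq ι] in
lemma split_word (l : List (ι ⊕ B)) :
    (∃ m : List B, l = m.map Sum.inr) ∨
      ∃ p i rest, l = (p : List B).map Sum.inr ++ Sum.inl i :: rest := by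
  induction l with
  | nil => exact Or.inl ⟨[], rfl⟩
  | cons z l ih =>
    cases z with
    | inl i => exact Or.inr ⟨[], i, l, rfl⟩
    | inr b =>
      rcases ih with ⟨m, rfl⟩ | ⟨p, i, rest, rfl⟩
      · exact Or.inl ⟨b :: m, rfl⟩
      · exact Or.inr ⟨b :: p, i, rest, rfl⟩

lemma wick_inr (n : ℕ) (m : List B) :
    wick φ n ((m.map Sum.inr : List (ι ⊕ B))) = φ m := by
  have h : ((m.map Sum.inr : List (ι ⊕ B))).filterMap Sum.getRight? = m := by
    simp [List.filterMap_map, Function.comp_def]
  have hd : ((m.map Sum.inr : List (ι ⊕ B))).dropWhile (fun z => z.isRight) = [] := by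
    induction m <;> simp_all
  cases n with
  | zero => rw [wick, h]
  | succ n => simp [wick, hd, h]

/-- The functional with enough fuel. -/
noncomputable def word (l : List (ι ⊕ B)) : ℂ := wick φ l.length l

lemma wick_eq_word : ∀ (n : ℕ) (l : List (ι ⊕ B)), l.length ≤ n → wick φ n l = word φ l := by
  intro n
  induction n using Nat.strong_induction_on with
  | _ n ih =>
    intro l hl
    rcases split_word l with ⟨m, rfl⟩ | ⟨p, i, rest, rfl⟩
    · rw [wick_inr, word, wick_inr]
    · rw [word]
      simp only [List.length_append, List.length_map, List.length_cons] at hl ⊢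
      obtain ⟨n, rfl⟩ : ∃ n', n = n' + 1 := ⟨n - 1, by omega⟩
      rw [show p.length + (rest.length + 1) = p.length + rest.length + 1 by omega]
      simp only [wick, dropWhile_pre, takeWhile_pre]
      refine Finset.sum_congr rfl fun k hk => ?_
      rw [Finset.mem_range] at hk
      split_ifs
      · have h1 : (rest.take k).length ≤ p.length + rest.length := by simp; try omega
        have h2 : (p.map Sum.inr ++ rest.drop (k + 1)).length ≤ p.length + rest.length := by
          simp; try omega
        rw [ih n (by omega) _ (by omega), ih n (by omega) _ (by omega)]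
        by_cases hn : p.length + rest.length < n + 1
        · rw [ih _ hn _ h1, ih _ hn _ h2]
        · omega
      · rfl

lemma word_inr (m : List B) : word φ ((m.map Sum.inr : List (ι ⊕ B))) = φ m := wick_inr φ _ m

lemma word_inl (p : List B) (i : ι) (rest : List (ι ⊕ B)) :
    word φ (p.map Sum.inr ++ Sum.inl i :: rest) =
      ∑ k ∈ Finset.range rest.length,
        if (rest[k]? >>= Sum.getLeft?) = some i then
          word φ (rest.take k) * word φ (p.map Sum.inr ++ rest.drop (k + 1))
        else 0 := by
  rw [word]
  simp only [List.length_append, List.length_map, List.length_cons]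
  rw [show p.length + (rest.length + 1) = p.length + rest.length + 1 by omega]
  simp only [wick, dropWhile_pre, takeWhile_pre]
  refine Finset.sum_congr rfl fun k hk => ?_
  rw [Finset.mem_range] at hk
  split_ifs
  · rw [wick_eq_word φ _ _ (by simp; try omega), wick_eq_word φ _ _ (by simp; try omega)]
  · rfl

/-! ### The functional on the free algebra -/

/-- Formal combinations of words. -/
abbrev Alg (ι B : Type) : Type := MonoidAlgebra ℂ (FreeMonoid (ι ⊕ B))

/-- A word as an element. -/
noncomputable def wrd (l : List (ι ⊕ B)) : Alg ι B :=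
  MonoidAlgebra.of ℂ _ (FreeMonoid.ofList l)

/-- Linear extension. -/
noncomputable def lin {M : Type*} [AddCommGroup M] [Module ℂ M] (f : List (ι ⊕ B) → M) :
    Alg ι B →ₗ[ℂ] M :=
  (Finsupp.linearCombination ℂ fun m => f (FreeMonoid.toList m)).comp
    (MonoidAlgebra.coeffLinearEquiv ℂ).toLinearMap

omit [DecidableEq ι] in
lemma lin_wrd {M : Type*} [AddCommGroup M] [Module ℂ M] (f : List (ι ⊕ B) → M)
    (l : List (ι ⊕ B)) : lin f (wrd l) = f l := by
  simp [lin, wrd]

omit [DecidableEq ι] in
lemma wrd_append (l l' : List (ι ⊕ B)) : wrd (l ++ l') = wrd l * wrd l' := by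
  simp [wrd, ← FreeMonoid.ofList_append]

omit [DecidableEq ι] in
lemma wrd_nil : (wrd ([] : List (ι ⊕ B))) = 1 := map_one _

omit [DecidableEq ι] in
lemma wrd_cons (z : ι ⊕ B) (l : List (ι ⊕ B)) : wrd (z :: l) = wrd [z] * wrd l := by
  rw [← wrd_append, List.singleton_append]

/-- The functional. -/
noncomputable def Phi : Alg ι B →ₗ[ℂ] ℂ := lin (word φ)

/-- Contractions of a word with a letter `i` standing in front, in context `(a, b)`. -/
noncomputable def cut (i : ι) (p : List B) : List (ι ⊕ B) → Alg ι B →ₗ[ℂ] Alg ι B →ₗ[ℂ] ℂ
  | [] => 0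
  | z :: l =>
    (if z.getLeft? = some i then
        (Phi φ).smulRight ((Phi φ).comp (LinearMap.mulLeft ℂ (wrd (p.map Sum.inr) * wrd l)))
      else 0) + (cut i p l).comp (LinearMap.mulRight ℂ (wrd [z]))

/-- Linear extension of `cut`. -/
noncomputable def der (i : ι) (p : List B) : Alg ι B →ₗ[ℂ] Alg ι B →ₗ[ℂ] Alg ι B →ₗ[ℂ] ℂ :=
  lin (cut φ i p)

lemma cut_append (i : ι) (p : List B) : ∀ (l l' : List (ι ⊕ B)) (a b : Alg ι B),
    cut φ i p (l ++ l') a b = cut φ i p l a (wrd l' * b) + cut φ i p l' (a * wrd l) b := by
  intro l
  induction l with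
  | nil => intro l' a b; simp [cut, wrd_nil]
  | cons z l ih =>
    intro l' a b
    simp only [List.cons_append, cut, LinearMap.add_apply, LinearMap.comp_apply,
      LinearMap.mulRight_apply, ih]
    rw [wrd_cons z l, mul_assoc a]
    split_ifs <;> simp [wrd_append, add_assoc]

lemma der_mul (i : ι) (p : List B) (X Y a b : Alg ι B) :
    der φ i p (X * Y) a b = der φ i p X a (Y * b) + der φ i p Y (a * X) b := by
  induction X using MonoidAlgebra.induction_on with
  | of m =>
    induction Y using MonoidAlgebra.induction_on with
    | of m' =>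
      rw [show MonoidAlgebra.of ℂ _ m = wrd m.toList from rfl,
        show MonoidAlgebra.of ℂ _ m' = wrd m'.toList from rfl, ← wrd_append, der, lin_wrd,
        lin_wrd, lin_wrd, cut_append]
    | add Y Y' h h' => simp only [mul_add, add_mul, map_add, LinearMap.add_apply, h, h']; ring
    | smul r Y h =>
      simp only [mul_smul_comm, smul_mul_assoc, map_smul, LinearMap.smul_apply, h, smul_add]
  | add X X' h h' => simp only [mul_add, add_mul, map_add, LinearMap.add_apply, h, h']; ring
  | smul r X h =>
    simp only [mul_smul_comm, smul_mul_assoc, map_smul, LinearMap.smul_apply, h, smul_add]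

lemma der_one (i : ι) (p : List B) (a b : Alg ι B) : der φ i p 1 a b = 0 := by
  rw [← wrd_nil, der, lin_wrd, cut]; simp

/-- The recursion: the first semicircular letter is contracted with the rest. -/
lemma phi_front (i : ι) (p : List B) (X : Alg ι B) :
    Phi φ (wrd (p.map Sum.inr) * wrd [Sum.inl i] * X) = der φ i p X 1 1 := by
  have key : ∀ (l u : List (ι ⊕ B)),
      cut φ i p l (wrd u) 1 = ∑ k ∈ Finset.range l.length,
        if (l[k]? >>= Sum.getLeft?) = some i then
          word φ (u ++ l.take k) * word φ (p.map Sum.inr ++ l.drop (k + 1)) else 0 := by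
    intro l
    induction l with
    | nil => intro u; simp [cut]
    | cons z l ih =>
      intro u
      rw [List.length_cons, Finset.sum_range_succ', cut]
      simp only [LinearMap.add_apply, LinearMap.comp_apply, LinearMap.mulRight_apply,
        ← wrd_append, ih, List.getElem?_cons_succ, List.take_succ_cons, List.drop_succ_cons,
        List.append_assoc, List.singleton_append]
      rw [add_comm]
      congr 1
      rcases z with j | c
      · by_cases hj : j = i <;> simp [hj, Phi, lin_wrd]
      · simp
  induction X using MonoidAlgebra.induction_on with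
  | of m =>
    have e1 : (1 : Alg ι B) = wrd [] := wrd_nil.symm
    rw [show MonoidAlgebra.of ℂ _ m = wrd m.toList from rfl, ← wrd_append, ← wrd_append, Phi,
      lin_wrd, der, lin_wrd, List.append_assoc, List.singleton_append, word_inl]
    conv_rhs => arg 1; arg 2; rw [e1]
    rw [key]
    simp
  | add X X' h h' => simp [mul_add, h, h']
  | smul r X h => simp [h]

/-! ### Moments of one letter -/

/-- A semicircular letter. -/
noncomputable def let' (i : ι) : Alg ι B := wrd [Sum.inl i]

lemma der_letter (i j : ι) (p : List B) (a b : Alg ι B) :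
    der φ i p (let' j) a b =
      if j = i then Phi φ a * Phi φ (wrd (p.map Sum.inr) * b) else 0 := by
  rw [let', der, lin_wrd, cut, cut]
  by_cases h : j = i <;> simp [h, wrd_nil]

lemma der_pow (i j : ι) (p : List B) (q : ℕ) : ∀ a b : Alg ι B,
    der φ i p (let' j ^ q) a b = if j = i then ∑ t ∈ Finset.range q,
      Phi φ (a * let' j ^ t) * Phi φ (wrd (p.map Sum.inr) * (let' j ^ (q - 1 - t) * b))
    else 0 := by
  induction q with
  | zero => intro a b; simp [der_one]
  | succ q ih =>
    intro a b
    rw [pow_succ, der_mul, ih, der_letter]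
    split_ifs with h
    · rw [Finset.sum_range_succ, Nat.add_sub_cancel, Nat.sub_self, pow_zero, one_mul]
      refine congrArg (· + _) (Finset.sum_congr rfl fun t ht => ?_)
      rw [Finset.mem_range] at ht
      rw [show q - t = q - 1 - t + 1 by omega, pow_succ _ (q - 1 - t), mul_assoc]
    · exact add_zero 0

/-- The moments of the semicircle law. -/
noncomputable def mom (n : ℕ) : ℂ := (scMoment n : ℂ)

lemma mom_zero : mom 0 = 1 := by simp [mom, VP086.Model.scMoment_zero]

lemma mom_rec (m : ℕ) :
    mom (m + 1) = ∑ t ∈ Finset.range m, mom t * mom (m - 1 - t) := by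
  simp [mom, VP086.Model.scMoment_rec]

lemma phi_pow (h0 : φ [] = 1) (i : ι) : ∀ n : ℕ, Phi φ (let' (B := B) i ^ n) = mom n := by
  intro n
  induction n using Nat.strong_induction_on with
  | _ n ih =>
    cases n with
    | zero =>
      rw [pow_zero, ← wrd_nil, Phi, lin_wrd, mom_zero]
      exact (word_inr φ []).trans h0
    | succ m =>
      have h := phi_front φ i [] (let' i ^ m)
      rw [show wrd (([] : List B).map Sum.inr) * wrd [Sum.inl i] * let' i ^ m =
        let' i ^ (m + 1) by simp [wrd_nil, let', pow_succ']] at h
      rw [h, der_pow, if_pos rfl, mom_rec]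
      refine Finset.sum_congr rfl fun t ht => ?_
      rw [Finset.mem_range] at ht
      simp [wrd_nil, ih t (by omega), ih (m - 1 - t) (by omega)]

/-! ### Freeness -/

/-- A centred power of a semicircular letter, or a combination of coefficient words. -/
abbrev Blk (ι B : Type) : Type := (ι × ℕ) ⊕ Alg ι B

/-- The centred power. -/
noncomputable def bar (i : ι) (n : ℕ) : Alg ι B := let' i ^ n - mom n • 1

/-- Combinations of coefficient words. -/
noncomputable def base : Submodule ℂ (Alg ι B) :=
  Submodule.span ℂ (Set.range fun p : List B => wrd (p.map Sum.inr))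

/-- The element of a block. -/
noncomputable def blkEl : Blk ι B → Alg ι B := Sum.elim (fun q => bar q.1 q.2) id

/-- The algebra of a block. -/
def key : Blk ι B → Option ι := Sum.elim (fun q => some q.1) fun _ => none

/-- The degree of a list of blocks. -/
def deg (l : List (Blk ι B)) : ℕ := (l.map (Sum.elim Prod.snd fun _ => 0)).sum

/-- The product of a list of blocks. -/
noncomputable def prd (l : List (Blk ι B)) : Alg ι B := (l.map blkEl).prod

/-- Alternating, with centred coefficients. -/
def Good (l : List (Blk ι B)) : Prop :=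
  l.IsChain (fun a b => key a ≠ key b) ∧
    ∀ z, Sum.inr z ∈ l → z ∈ (base : Submodule ℂ (Alg ι B)) ∧ Phi φ z = 0

/-- The induction hypothesis. -/
def Vanish (N : ℕ) : Prop :=
  ∀ l : List (Blk ι B), Good φ l → l ≠ [] → deg l < N → Phi φ (prd l) = 0

lemma der_base (i : ι) (p : List B) {z : Alg ι B} (hz : z ∈ base) (a b : Alg ι B) :
    der φ i p z a b = 0 := by
  induction hz using Submodule.span_induction generalizing a b with
  | mem x hx =>
    obtain ⟨q, rfl⟩ := hx
    induction q generalizing a b with
    | nil => simp [wrd_nil, der_one]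
    | cons c q ih =>
      simp only at ih ⊢
      rw [List.map_cons, wrd_cons, der_mul, ih]
      simp [der, lin_wrd, cut]
  | zero => simp
  | add x y _ _ hx hy => simp [hx, hy]
  | smul c x _ hx => simp [hx]

omit [DecidableEq ι] in
lemma prd_cons (b : Blk ι B) (l : List (Blk ι B)) : prd (b :: l) = blkEl b * prd l := by
  simp [prd]

omit [DecidableEq ι] in
lemma prd_append (l l' : List (Blk ι B)) : prd (l ++ l') = prd l * prd l' := by simp [prd]

lemma sandwich {N : ℕ} (hN : Vanish (ι := ι) φ N) (i : ι) (m t : ℕ) {L : List (Blk ι B)}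
    (hne : L ≠ []) (hg : Good φ L) (hh : ∀ b ∈ L.head?, key b ≠ some i)
    (hl : ∀ b ∈ L.getLast?, key b ≠ some i) (hd : m + deg L + t < N) :
    Phi φ (let' i ^ m * prd L * let' i ^ t) = 0 := by
  have e : ∀ n : ℕ, let' i ^ n = blkEl (Sum.inl (i, n) : Blk ι B) + mom n • 1 := fun n => by
    simp [blkEl, bar]
  have hA : Good φ (Sum.inl (i, m) :: L) := by
    refine ⟨List.isChain_cons.2 ⟨fun b hb => (hh b hb).symm, hg.1⟩, fun z hz => hg.2 z ?_⟩
    simpa using hz
  have hB : ∀ L' : List (Blk ι B), Good φ L' → (∀ b ∈ L'.getLast?, key b ≠ some i) →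
      Good φ (L' ++ [Sum.inl (i, t)]) := by
    intro L' h h'
    refine ⟨List.isChain_append.2 ⟨h.1, List.isChain_singleton _, ?_⟩, fun z hz => h.2 z ?_⟩
    · intro x hx y hy
      simp only [List.head?_cons, Option.mem_def, Option.some.injEq] at hy
      subst hy
      exact h' x hx
    · simpa using hz
  have hA' : ∀ b ∈ (Sum.inl (i, m) :: L : List (Blk ι B)).getLast?, key b ≠ some i := by
    intro b hb
    rw [List.getLast?_cons_of_ne_nil hne] at hb  
    exact hl b hb
  have d1 : deg (Sum.inl (i, m) :: L ++ [Sum.inl (i, t)] : List (Blk ι B)) < N := by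
    simp [deg] at hd ⊢; omega
  have d2 : deg (L ++ [Sum.inl (i, t)] : List (Blk ι B)) < N := by
    simp [deg] at hd ⊢; omega
  have d3 : deg (Sum.inl (i, m) :: L : List (Blk ι B)) < N := by
    simp [deg] at hd ⊢; omega
  have d4 : deg L < N := by omega
  have v1 := hN _ (hB _ hA hA') (by simp) d1
  have v2 := hN _ (hB _ hg hl) (by simp) d2
  have v3 := hN _ hA (by simp) d3
  have v4 := hN _ hg hne d4
  simp only [prd_append, prd_cons] at v1 v2 v3
  rw [e m, e t]
  simp only [add_mul, mul_add, smul_mul_assoc, mul_smul_comm, one_mul, mul_one, map_add,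
    map_smul, smul_eq_mul]
  simp only [prd, List.map_nil, List.prod_nil, mul_one, ← mul_assoc] at v1 v2 v3 v4 ⊢
  simp only [v1, v2, v3, v4, mul_zero, add_zero]

lemma front {N : ℕ} (hN : Vanish (ι := ι) φ N) (h0 : φ [] = 1) (i : ι) : ∀ (n : ℕ) (R : List (Blk ι B)),
    Good φ R → (∀ b ∈ R.head?, key b ≠ some i) → n + deg R ≤ N →
    ∀ p : List B, Phi φ (wrd (p.map Sum.inr) * bar i n * prd R) = 0 := by
  intro n
  induction n using Nat.strong_induction_on with
  | _ n ih =>
    intro R hR hh hd p
    cases n with
    | zero => simp [bar, mom_zero]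
    | succ m =>
      set P : Alg ι B := wrd (p.map Sum.inr) with hP
      have hlow : ∀ j ≤ m, Phi φ (P * (let' i ^ j * prd R)) = mom j * Phi φ (P * prd R) := by
        intro j hj
        have h := ih j (by omega) R hR hh (by omega) p
        rw [bar, mul_sub, sub_mul, map_sub, sub_eq_zero, mul_smul_comm, mul_one,
          smul_mul_assoc, map_smul, smul_eq_mul, mul_assoc] at h
        exact h
      have hcross : ∀ (T L : List (Blk ι B)), L ++ T = R →
          der φ i p (prd T) (let' i ^ m * prd L) 1 = 0 := by
        intro T
        induction T with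
        | nil => intro L _; simp [prd, der_one]
        | cons b T ihT =>
          intro L hL
          rw [prd_cons, der_mul, mul_assoc (let' i ^ m),
            show prd L * blkEl b = prd (L ++ [b]) by simp [prd], ihT (L ++ [b]) (by simp [hL]),
            add_zero]
          have hmem : b ∈ R := by simp [← hL]
          cases b with
          | inr z => exact der_base φ i p (hR.2 z hmem).1 _ _
          | inl q =>
            obtain ⟨j, q⟩ := q
            simp only [blkEl, Sum.elim_inl, bar, map_sub, map_smul, LinearMap.sub_apply,
              LinearMap.smul_apply, der_one, smul_zero, sub_zero, der_pow]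
            split_ifs with hji
            · subst hji
              refine Finset.sum_eq_zero fun t ht => ?_
              rw [Finset.mem_range] at ht
              have hne : L ≠ [] := by
                rintro rfl
                exact hh (Sum.inl (j, q)) (by simp [← hL]) rfl
              have hsub : Good φ L := by
                refine ⟨?_, fun z hz => hR.2 z (by simp [← hL, hz])⟩
                have h1 := hR.1
                rw [← hL] at h1
                exact (List.isChain_append.1 h1).1
              have hlast : ∀ b ∈ L.getLast?, key b ≠ some j := by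
                intro b hb
                have h1 := hR.1
                rw [← hL] at h1
                exact (List.isChain_append.1 h1).2.2 b hb (Sum.inl (j, q)) (by simp)
              have hdd : m + deg L + t < N := by
                simp [← hL, deg] at hd ⊢
                omega
              rw [sandwich φ hN j m t hne hsub (fun b hb => hh b ?_) hlast hdd, zero_mul]
              rw [← hL, List.head?_append_of_ne_nil _ hne]
              exact hb
            · rfl
      have hcr : der φ i p (prd R) (let' i ^ m) 1 = 0 := by simpa [prd] using hcross R [] rfl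
      have hfront := phi_front φ i p (let' i ^ m * prd R)
      rw [der_mul, one_mul, hcr, add_zero, mul_one, der_pow, if_pos rfl] at hfront
      rw [bar, mul_sub, sub_mul, map_sub, mul_smul_comm, mul_one, smul_mul_assoc, map_smul,
        smul_eq_mul, pow_succ', ← mul_assoc P, mul_assoc (P * let' i)]
      rw [show P * let' i = wrd (p.map Sum.inr) * wrd [Sum.inl i] from rfl, hfront, mom_rec,
        Finset.sum_mul, sub_eq_zero]
      refine Finset.sum_congr rfl fun t ht => ?_
      rw [Finset.mem_range] at ht
      rw [one_mul, phi_pow φ h0, ← hP, hlow _ (by omega)]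
      ring

/-- Alternating products of centred elements have functional zero. -/
theorem vanish (h0 : φ [] = 1) : ∀ N, Vanish (ι := ι) φ N := by
  intro N
  induction N with
  | zero => intro l _ _ h; exact absurd h (Nat.not_lt_zero _)
  | succ N ihN =>
    intro l hl hne hd
    have hfr := fun i n R h1 h2 h3 p => front φ ihN h0 i n R h1 h2 h3 p
    match l, hne with
    | Sum.inl (i, n) :: R, _ =>
      obtain ⟨hc, hR⟩ := List.isChain_cons.1 hl.1
      have := hfr i n R ⟨hR, fun z hz => hl.2 z (List.mem_cons_of_mem _ hz)⟩
        (fun b hb h => hc b hb h.symm) (by simp [deg] at hd ⊢; omega) []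
      simpa [prd_cons, blkEl, wrd_nil] using this
    | [Sum.inr z], _ => simpa [prd, blkEl] using (hl.2 z (by simp)).2
    | Sum.inr z :: Sum.inr z' :: R, _ =>
      exact absurd rfl (List.isChain_cons_cons.1 hl.1).1
    | Sum.inr z :: Sum.inl (i, n) :: R, _ =>
      obtain ⟨hz, -⟩ := hl.2 z (by simp)
      obtain ⟨hc, hR⟩ := List.isChain_cons.1 (List.isChain_cons_cons.1 hl.1).2
      have h := hfr i n R ⟨hR, fun w hw => hl.2 w (by simp [hw])⟩
        (fun b hb h => hc b hb h.symm) (by simp [deg] at hd ⊢; omega)
      simp only [prd_cons, blkEl, Sum.elim_inr, Sum.elim_inl, id]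
      clear hl hd
      induction hz using Submodule.span_induction with
      | mem x hx => obtain ⟨p, rfl⟩ := hx; rw [← mul_assoc]; exact h p
      | zero => simp
      | add x y _ _ hx hy => simp [add_mul, hx, hy]
      | smul c x _ hx => simp [hx]

theorem phi_prd (h0 : φ [] = 1) {l : List (Blk ι B)} (hl : Good φ l) (hne : l ≠ []) :
    Phi φ (prd l) = 0 :=
  vanish φ h0 _ l hl hne (Nat.lt_succ_self _)

end VP085.Wick
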