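import Vale.Agent.P086.System

/-!
P085, step: a free pair made of the group algebra of three unitaries and the powers of one more
element has moments determined by the moments of that element, also in the limit.
-/

open Filter Topology

namespace VP085.Step

open VP086

/-- A tracial algebra with three unitaries and one element. -/
structure Tup where
  A : Type
  [cstar : CStarAlgebra A]
  H : Type
  [nacg : NormedAddCommGroup H]
  [ips : InnerProductSpace ℂ H]
  S : Std A H
  u : Fin 3 → unitary A
  q : A

attribute [instance] Tup.cstar Tup.nacg Tup.ips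

/-- Blocks: powers of the element, centred powers, group elements. -/
inductive Blk
  | pow (m : ℕ)
  | cpow (m : ℕ)
  | grp (h : FreeGroup (Fin 3))

/-- The side of a block. -/
def Blk.side : Blk → Bool
  | .pow _ => true
  | .cpow _ => true
  | .grp _ => false

/-- The blocks entering the hypothesis: centred nontrivial powers and nontrivial group elements. -/
def Blk.Centred : Blk → Prop
  | .pow _ => False
  | .cpow m => 1 ≤ m
  | .grp h => h ≠ 1

/-- Uncentring. -/
def Blk.toP : Blk → Blk
  | .cpow m => .pow m
  | x => x

/-- Centring. -/
def Blk.toC : Blk → Blk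
  | .pow m => .cpow m
  | x => x

variable (c : ℕ → ℂ)

/-- The value of a block. -/
noncomputable def Tup.bval (T : Tup) : Blk → T.A
  | .pow m => T.q ^ m
  | .cpow m => T.q ^ m - c m • 1
  | .grp h => (wordHom T.u h : T.A)

/-- The moment of a list of blocks. -/
noncomputable def Tup.bmom (T : Tup) (l : List Blk) : ℂ := T.S.τ (l.map (T.bval c)).prod

variable {κ : Type}

/-- Alternating centred products vanish along the filter. -/
def AsympFree (F : Filter κ) (T : κ → Tup) : Prop :=
  ∀ l : List Blk, l ≠ [] → (∀ x ∈ l, x.Centred) → l.IsChain (fun x y => x.side ≠ y.side) →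
    Tendsto (fun r => (T r).bmom c l) F (𝓝 0)

/-- The moment has one limit along all asymptotically free families. -/
def Determined (l : List Blk) : Prop :=
  ∃ L : ℂ, ∀ (κ : Type) (F : Filter κ) (T : κ → Tup), AsympFree c F T →
    Tendsto (fun r => (T r).bmom c l) F (𝓝 L)

lemma Tup.bmom_nil (T : Tup) : T.bmom c [] = 1 := by
  show T.S.τ 1 = 1
  rw [Std.τ, inner_self_eq_norm_sq_to_K, T.S.norm_one]
  simp

lemma Determined.congr {l l' : List Blk} (h : Determined c l')
    (e : ∀ T : Tup, T.bmom c l = T.bmom c l') : Determined c l := by
  obtain ⟨L, hL⟩ := h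
  exact ⟨L, fun κ F T hT => (hL κ F T hT).congr fun r => (e (T r)).symm⟩

lemma Tup.bmom_cpow (T : Tup) (m : ℕ) (P R : List Blk) :
    T.bmom c (P ++ .cpow m :: R) = T.bmom c (P ++ .pow m :: R) - c m * T.bmom c (P ++ R) := by
  simp only [Tup.bmom, List.map_append, List.map_cons, List.prod_append, List.prod_cons, Tup.bval,
    sub_mul, mul_sub, smul_mul_assoc, one_mul, mul_smul_comm, Std.τ, map_sub, map_smul,
    inner_sub_right, inner_smul_right]

lemma determined_cpow_iff (m : ℕ) {P R : List Blk} (h : Determined c (P ++ R)) :
    Determined c (P ++ .cpow m :: R) ↔ Determined c (P ++ .pow m :: R) := by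
  obtain ⟨L₀, h₀⟩ := h
  constructor
  · rintro ⟨L, hL⟩
    refine ⟨L + c m * L₀, fun κ F T hT => ((hL κ F T hT).add
      ((h₀ κ F T hT).const_mul (c m))).congr fun r => ?_⟩
    rw [Tup.bmom_cpow]; ring
  · rintro ⟨L, hL⟩
    refine ⟨L - c m * L₀, fun κ F T hT => ((hL κ F T hT).sub
      ((h₀ κ F T hT).const_mul (c m))).congr fun r => ?_⟩
    rw [Tup.bmom_cpow]

/-- At a given length, centring does not matter once shorter lists are determined. -/
lemma determined_map_iff {n : ℕ} (hn : ∀ l : List Blk, l.length ≤ n → Determined c l)
    (f : Blk → Blk) (hf : f = Blk.toP ∨ f = Blk.toC) :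
    ∀ (R P : List Blk), P.length + R.length ≤ n + 1 →
      (Determined c (P ++ R) ↔ Determined c (P ++ R.map f))
  | [], P, _ => Iff.rfl
  | x :: R, P, h => by
    have hshort : Determined c (P ++ R) := hn _ (by
      simp only [List.length_append, List.length_cons] at *
      omega)
    have h1 : Determined c (P ++ x :: R) ↔ Determined c (P ++ f x :: R) := by
      rcases hf with rfl | rfl
      · cases x with
        | cpow m => exact determined_cpow_iff c m hshort
        | pow m => rfl
        | grp h => rfl
      · cases x with
        | pow m => exact (determined_cpow_iff c m hshort).symm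
        | cpow m => rfl
        | grp h => rfl
    rw [h1, List.map_cons]
    have h2 := determined_map_iff hn f hf R (P ++ [f x]) (by
      simp only [List.length_append, List.length_cons, List.length_nil] at *; omega)
    simpa using h2

lemma chain_or_split {α : Type} (r : α → α → Prop) : ∀ l : List α,
    l.IsChain r ∨ ∃ P x y R, l = P ++ x :: y :: R ∧ ¬ r x y
  | [] => Or.inl List.IsChain.nil
  | [x] => Or.inl (List.IsChain.singleton x)
  | x :: y :: l => by
    by_cases hxy : r x y
    · rcases chain_or_split r (y :: l) with h | ⟨P, a, b, R, e, h⟩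
      · exact Or.inl (List.isChain_cons_cons.2 ⟨hxy, h⟩)
      · exact Or.inr ⟨x :: P, a, b, R, by rw [e, List.cons_append], h⟩
    · exact Or.inr ⟨[], x, y, l, rfl, hxy⟩

/-- Every list is determined. -/
theorem determined : ∀ (n : ℕ) (l : List Blk), l.length ≤ n → Determined c l := by
  intro n
  induction n with
  | zero =>
    intro l hl
    rw [List.length_eq_zero_iff.1 (Nat.le_zero.1 hl)]
    exact ⟨1, fun κ F T _ => tendsto_const_nhds.congr fun r => ((T r).bmom_nil c).symm⟩
  | succ n ih =>
    intro l₀ hl₀
    have e₁ := determined_map_iff c ih Blk.toP (Or.inl rfl) l₀ [] (by simpa using hl₀)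
    simp only [List.nil_append] at e₁
    rw [e₁]
    set l := l₀.map Blk.toP with hl_def
    have hl : l.length ≤ n + 1 := by rw [hl_def, List.length_map]; exact hl₀
    have hpow : ∀ x ∈ l, ∀ m, x ≠ Blk.cpow m := by
      intro x hx m
      rw [hl_def, List.mem_map] at hx
      obtain ⟨y, -, rfl⟩ := hx
      cases y <;> simp [Blk.toP]
    by_cases htriv : ∃ x ∈ l, x = Blk.pow 0 ∨ x = Blk.grp 1
    · obtain ⟨x, hx, hx1⟩ := htriv
      obtain ⟨P, R, e⟩ := List.append_of_mem hx
      rw [e] at hl ⊢
      refine (ih (P ++ R) (by simp only [List.length_append, List.length_cons] at *; omega)).congr c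
        fun T => ?_
      rcases hx1 with rfl | rfl <;> simp [Tup.bmom, Tup.bval]
    rcases chain_or_split (fun x y : Blk => x.side ≠ y.side) l with hch | ⟨P, x, y, R, e, hxy⟩
    · rcases eq_or_ne l [] with hnil | hnil
      · rw [hnil]; exact ih [] (Nat.zero_le _)
      have e₂ := determined_map_iff c ih Blk.toC (Or.inr rfl) l [] (by simpa using hl)
      simp only [List.nil_append] at e₂
      rw [e₂]
      refine ⟨0, fun κ F T hT => hT _ (by simpa using hnil) ?_ ?_⟩
      · intro z hz
        rw [List.mem_map] at hz
        obtain ⟨w, hw, rfl⟩ := hz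
        cases w with
        | pow m => exact Nat.one_le_iff_ne_zero.2 fun h => htriv ⟨_, hw, Or.inl (by rw [h])⟩
        | cpow m => exact absurd rfl (hpow _ hw m)
        | grp h => exact fun h1 => htriv ⟨_, hw, Or.inr (by rw [h1])⟩
      · rw [List.isChain_map]
        refine hch.imp fun a b h => ?_
        cases a <;> cases b <;> simp_all [Blk.toC, Blk.side]
    · have hx := hpow x (by simp [e])
      have hy := hpow y (by simp [e])
      rw [e] at hl ⊢
      simp only [List.length_append, List.length_cons] at hl
      cases x with
      | cpow m => exact absurd rfl (hx m)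
      | pow m =>
        cases y with
        | cpow k => exact absurd rfl (hy k)
        | grp h => simp [Blk.side] at hxy
        | pow k =>
          refine (ih (P ++ .pow (m + k) :: R) (by
            simp only [List.length_append, List.length_cons]; omega)).congr c fun T => ?_
          simp [Tup.bmom, Tup.bval, pow_add, mul_assoc]
      | grp h =>
        cases y with
        | cpow k => exact absurd rfl (hy k)
        | pow k => simp [Blk.side] at hxy
        | grp k =>
          refine (ih (P ++ .grp (h * k) :: R) (by
            simp only [List.length_append, List.length_cons]; omega)).congr c fun T => ?_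
          simp [Tup.bmom, Tup.bval, mul_assoc]

/-- An exactly free tuple gives the limit of every asymptotically free family. -/
theorem tendsto_bmom {T₀ : Tup} (h₀ : AsympFree c (⊤ : Filter Unit) fun _ => T₀) {F : Filter κ}
    {T : κ → Tup} (hT : AsympFree c F T) (l : List Blk) :
    Tendsto (fun r => (T r).bmom c l) F (𝓝 (T₀.bmom c l)) := by
  obtain ⟨L, hL⟩ := determined c l.length l le_rfl
  have h : L = T₀.bmom c l := tendsto_nhds_unique (hL Unit ⊤ _ h₀) tendsto_const_nhds
  exact h ▸ hL κ F T hT

end VP085.Step
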